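import Vale.Agent.P209.Asymp.Defs

/-!
P209, high dimensions: counting units by dyadic windows and fine classes.
-/

namespace Vale.Agent.P209.Asymp

open Finset

variable {n k : ℕ}

/-- The balls indexed by `S` fit in `U` units of size `σ`. -/
def Units (e : Fin n) (r : Fin k → ℝ) (σ : ℝ) (S : Finset (Fin k)) (U : ℕ) : Prop :=
  1 ≤ U ∧ PacksIn (unitVec e σ U) fun i : S => r i

lemma Units.mono {e : Fin n} {r : Fin k → ℝ} {σ : ℝ} (hσ : 0 < σ) {S : Finset (Fin k)} {U V : ℕ}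
    (h : Units e r σ S U) (hUV : U ≤ V) : Units e r σ S V := by
  have hU : (0 : ℝ) < U := by exact_mod_cast h.1
  refine ⟨h.1.trans hUV, h.2.push (Fill.of_le (fun i => ?_) fun i => ?_)⟩
  · unfold unitVec; split <;> positivity
  · unfold unitVec
    split
    · gcongr
    · rfl

lemma units_empty (e : Fin n) (r : Fin k → ℝ) (σ : ℝ) : Units e r σ ∅ 1 :=
  ⟨le_rfl, 1 / 2, by norm_num, by norm_num, fun _ x => x, fun _ => Set.univ,
    fun i => absurd i.2 (Finset.notMem_empty _), fun i => absurd i.2 (Finset.notMem_empty _)⟩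

lemma Units.union (hm : MergeStmt) {e : Fin n} {r : Fin k → ℝ} {σ : ℝ} (hσ : 0 < σ)
    {S T : Finset (Fin k)} {U V : ℕ} (hS : Units e r σ S U) (hT : Units e r σ T V) :
    Units e r σ (S ∪ T) (U + V) := by
  classical
  refine ⟨by have := hS.1; omega, ?_⟩
  have h := hm.2 n e σ S T _ _ U V hσ hS.1 hT.1 hS.2 hT.2
  let g : (↑(S ∪ T) : Type) → S ⊕ T := fun i =>
    if h : (i : Fin k) ∈ S then Sum.inl ⟨i, h⟩
    else Sum.inr ⟨i, (Finset.mem_union.1 i.2).resolve_left h⟩
  have hg : ∀ i, Sum.elim (fun a : S => (a : Fin k)) (fun b : T => (b : Fin k)) (g i) = i := by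
    intro i; by_cases hi : (i : Fin k) ∈ S <;> simp [g, hi]
  have hinj : Function.Injective g := fun i j hij => Subtype.ext (by rw [← hg i, ← hg j, hij])
  have h2 := h.reindex ⟨g, hinj⟩
  convert h2 using 2 with i
  simp only [Function.Embedding.coeFn_mk]
  by_cases hi : (i : Fin k) ∈ S <;> simp [g, hi]

lemma units_card (hm : MergeStmt) (e : Fin n) (r : Fin k → ℝ) {σ : ℝ} (hσ : 0 < σ)
    (S : Finset (Fin k)) (hne : S.Nonempty) (hr : ∀ i ∈ S, 0 < r i ∧ r i < σ) :
    Units e r σ S S.card := by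
  classical
  induction hne using Finset.Nonempty.cons_induction with
  | singleton a =>
    have h := hm.1 n e σ (r a) (hr a (by simp)).1 (hr a (by simp)).2
    refine ⟨by simp, ?_⟩
    have h2 := h.reindex (ι := ({a} : Finset (Fin k)))
      ⟨fun _ => (), fun i j _ => Subtype.ext ((Finset.mem_singleton.1 i.2).trans
        (Finset.mem_singleton.1 j.2).symm)⟩
    simp only [Finset.card_singleton]
    convert h2 using 2 with i
    rw [Finset.mem_singleton.1 i.2]
  | cons a S ha hS ih =>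
    have hsing : Units e r σ {a} 1 := by
      have h := hm.1 n e σ (r a) (hr a (by simp)).1 (hr a (by simp)).2
      refine ⟨le_rfl, ?_⟩
      have h2 := h.reindex (ι := ({a} : Finset (Fin k)))
        ⟨fun _ => (), fun i j _ => Subtype.ext ((Finset.mem_singleton.1 i.2).trans
          (Finset.mem_singleton.1 j.2).symm)⟩
      convert h2 using 2 with i
      rw [Finset.mem_singleton.1 i.2]
    have := (ih fun i hi => hr i (by simp [hi])).union hm hσ hsing
    rw [Finset.card_cons]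
    convert this using 1
    ext i
    simp

/-- One class: balls in `[σ h/(h+t+1), σ h/(h+t))` in units of size `σ`. -/
lemma units_class (hm : MergeStmt) (hp : PushStmt) (e : Fin n) (r : Fin k → ℝ)
    {σ : ℝ} (hσ : 0 < σ) {h t : ℕ} (hh : 1 ≤ h) (ht : t < h) (S : Finset (Fin k))
    (hr : ∀ i ∈ S, σ * h / (h + t + 1) ≤ r i ∧ r i < σ * h / (h + t)) :
    ∃ U : ℕ, Units e r σ S U ∧
      (U : ℝ) ≤ (1 + 1 / (h : ℝ)) ^ n * ∑ i ∈ S, (r i / σ) ^ n + 10 * (h : ℝ) ^ 3 := by
  have hh1 : (1 : ℝ) ≤ h := by exact_mod_cast hh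
  have hpos : (0 : ℝ) < (1 + 1 / (h : ℝ)) ^ n := by positivity
  have h3 : (1 : ℝ) ≤ (h : ℝ) ^ 3 := one_le_pow₀ hh1
  have hr0 : ∀ i ∈ S, 0 < r i := fun i hi =>
    lt_of_lt_of_le (by positivity) (hr i hi).1
  rcases S.eq_empty_or_nonempty with rfl | hne
  · exact ⟨1, units_empty e r σ, by simp only [Finset.sum_empty]; push_cast; linarith⟩
  set s : ℝ := σ * h / (h + t) with hs
  have hs0 : 0 < s := by positivity
  have hK := units_card hm e r hs0 S hne fun i hi => ⟨hr0 i hi, (hr i hi).2⟩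
  have hsum : (S.card : ℝ) * ((h : ℝ) / (h + t)) ^ n ≤
      (1 + 1 / (h : ℝ)) ^ n * ∑ i ∈ S, (r i / σ) ^ n := by
    rw [Finset.mul_sum, ← nsmul_eq_mul, ← Finset.sum_const]
    refine Finset.sum_le_sum fun i hi => ?_
    rw [← mul_pow]
    refine pow_le_pow_left₀ (by positivity) ?_ n
    have h1 : (h : ℝ) / (h + t + 1) ≤ r i / σ := by
      rw [le_div_iff₀ hσ, div_mul_eq_mul_div]
      rw [mul_comm (h : ℝ) σ]
      exact (hr i hi).1
    calc (h : ℝ) / (h + t) = ((h + t + 1) / (h + t)) * ((h : ℝ) / (h + t + 1)) := by field_simp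
      _ ≤ (1 + 1 / (h : ℝ)) * (r i / σ) := by
        refine mul_le_mul ?_ h1 (by positivity) (by positivity)
        rw [div_le_iff₀ (by positivity)]
        have : (t : ℝ) / h ≥ 0 := by positivity
        have e1 : (1 + 1 / (h : ℝ)) * (h + t) = h + t + 1 + t / h := by field_simp; ring
        linarith
  rcases Nat.eq_zero_or_pos t with rfl | ht0
  · refine ⟨S.card, ?_, ?_⟩
    · have : s = σ := by
        simp only [hs, Nat.cast_zero, add_zero]
        field_simp
      exact this ▸ hK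
    · have : ((h : ℝ) / ((h : ℝ) + ((0 : ℕ) : ℝ))) ^ n = 1 := by
        rw [Nat.cast_zero, add_zero, div_self (by positivity), one_pow]
      rw [this, mul_one] at hsum
      nlinarith
  · obtain ⟨K', hK1, hKb, hF⟩ := hp.1 n e s (h + t) h S.card hs0 (by omega) (by omega) hne.card_pos
    have he : s * ((h + t : ℕ) : ℝ) / (h : ℕ) = σ := by
      rw [hs]; push_cast; field_simp
    rw [he] at hF
    refine ⟨K', ⟨hK1, hK.2.push hF⟩, ?_⟩
    have h2 : ((h + t : ℕ) : ℝ) ^ 3 ≤ 8 * (h : ℝ) ^ 3 := by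
      rw [show (8 : ℝ) * (h : ℝ) ^ 3 = (2 * (h : ℝ)) ^ 3 by ring]
      refine pow_le_pow_left₀ (by positivity) ?_ 3
      have : (t : ℝ) ≤ h := by exact_mod_cast ht.le
      push_cast; linarith
    push_cast at hKb h2
    linarith

/-- A window `[σ/2, σ)`. -/
lemma units_window (hm : MergeStmt) (hp : PushStmt) (e : Fin n) (r : Fin k → ℝ)
    {σ : ℝ} (hσ : 0 < σ) {h : ℕ} (hh : 1 ≤ h) (S : Finset (Fin k))
    (hr : ∀ i ∈ S, σ / 2 ≤ r i ∧ r i < σ) :
    ∃ U : ℕ, Units e r σ S U ∧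
      (U : ℝ) ≤ (1 + 1 / (h : ℝ)) ^ n * ∑ i ∈ S, (r i / σ) ^ n + 11 * (h : ℝ) ^ 4 := by
  classical
  have hh0 : (0 : ℝ) < h := by exact_mod_cast hh
  suffices key : ∀ t : ℕ, t ≤ h → ∃ U : ℕ,
      Units e r σ (S.filter fun i => σ * h / (h + t) ≤ r i) U ∧
      (U : ℝ) ≤ (1 + 1 / (h : ℝ)) ^ n * ∑ i ∈ S.filter (fun i => σ * h / (h + t) ≤ r i),
        (r i / σ) ^ n + 1 + t * (10 * (h : ℝ) ^ 3) by
    obtain ⟨U, hU, hb⟩ := key h le_rfl
    have hS : (S.filter fun i => σ * h / (h + h) ≤ r i) = S := by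
      refine Finset.filter_true_of_mem fun i hi => ?_
      convert (hr i hi).1 using 1
      field_simp; ring
    rw [hS] at hU hb
    refine ⟨U, hU, hb.trans ?_⟩
    have : (1 : ℝ) ≤ (h : ℝ) ^ 4 := one_le_pow₀ (by exact_mod_cast hh)
    nlinarith
  intro t
  induction t with
  | zero =>
    intro _
    have : (S.filter fun i => σ * h / (h + (0 : ℕ)) ≤ r i) = ∅ := by
      refine Finset.filter_false_of_mem fun i hi => ?_
      rw [Nat.cast_zero, add_zero, mul_div_assoc, div_self hh0.ne', mul_one]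
      exact not_le.2 (hr i hi).2
    refine ⟨1, ?_, ?_⟩
    · rw [this]; exact units_empty e r σ
    · rw [this]; simp
  | succ t ih =>
    intro ht
    obtain ⟨U, hU, hb⟩ := ih (by omega)
    set T := S.filter fun i => σ * h / (h + (t + 1 : ℕ)) ≤ r i with hT
    set A := S.filter fun i => σ * h / (h + t) ≤ r i with hA
    have hAT : A ⊆ T := by
      intro i hi
      simp only [hA, hT, Finset.mem_filter] at hi ⊢
      refine ⟨hi.1, le_trans ?_ hi.2⟩
      gcongr
      omega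
    obtain ⟨V, hV, hVb⟩ := units_class hm hp e r hσ hh (show t < h by omega) (T \ A) fun i hi => by
      simp only [hA, hT, Finset.mem_sdiff, Finset.mem_filter, not_and, not_le] at hi
      refine ⟨?_, hi.2 hi.1.1⟩
      convert hi.1.2 using 2
      push_cast; ring
    refine ⟨U + V, ?_, ?_⟩
    · have := hU.union hm hσ hV
      rwa [Finset.union_sdiff_of_subset hAT] at this
    · rw [← Finset.sum_sdiff hAT, mul_add]
      push_cast
      linarith

/-- All scales below `σ`. -/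
lemma units_below (hm : MergeStmt) (hp : PushStmt) (hn : 1 ≤ n) (e : Fin n) (r : Fin k → ℝ)
    {h : ℕ} (hh : 1 ≤ h) :
    ∀ (J : ℕ) (σ : ℝ), 0 < σ → ∀ S : Finset (Fin k), (∀ i ∈ S, σ ≤ 2 ^ J * r i ∧ r i < σ) →
      ∃ U : ℕ, Units e r σ S U ∧
        (U : ℝ) ≤ (1 + 1 / (h : ℝ)) ^ n * ∑ i ∈ S, (r i / σ) ^ n + 50 * (h : ℝ) ^ 4 := by
  classical
  have h4 : (1 : ℝ) ≤ (h : ℝ) ^ 4 := one_le_pow₀ (by exact_mod_cast hh)
  intro J
  induction J with
  | zero =>
    intro σ hσ S hS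
    have : S = ∅ := Finset.eq_empty_of_forall_notMem fun i hi => by
      have := hS i hi; simp at this; linarith
    subst this
    exact ⟨1, units_empty e r σ, by simp; linarith⟩
  | succ J ih =>
    intro σ hσ S hS
    obtain ⟨U₁, hU₁, hb₁⟩ := units_window hm hp e r hσ hh (S.filter fun i => σ / 2 ≤ r i)
      fun i hi => ⟨(Finset.mem_filter.1 hi).2, (hS i (Finset.mem_filter.1 hi).1).2⟩
    obtain ⟨U₂, hU₂, hb₂⟩ := ih (σ / 2) (by linarith) (S.filter fun i => ¬ σ / 2 ≤ r i) fun i hi => by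
      obtain ⟨hi1, hi2⟩ := Finset.mem_filter.1 hi
      have := (hS i hi1).1
      rw [pow_succ] at this
      exact ⟨by linarith, not_le.1 hi2⟩
    obtain ⟨K, hK1, hKb, hF⟩ :=
      hp.1 n e (σ / 2) 2 1 U₂ (by linarith) (by norm_num) (by norm_num) hU₂.1
    have he : σ / 2 * ((2 : ℕ) : ℝ) / ((1 : ℕ) : ℝ) = σ := by push_cast; ring
    rw [he] at hF
    have hV : Units e r σ (S.filter fun i => ¬ σ / 2 ≤ r i) K := ⟨hK1, hU₂.2.push hF⟩
    refine ⟨U₁ + K, ?_, ?_⟩
    · have := hU₁.union hm hσ hV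
      rwa [Finset.filter_union_filter_not_eq] at this
    · rw [← Finset.sum_filter_add_sum_filter_not S (fun i => σ / 2 ≤ r i), mul_add]
      push_cast at hKb ⊢
      have hhalf : (1 / 2 : ℝ) ^ n ≤ 1 / 2 := by
        calc (1 / 2 : ℝ) ^ n ≤ (1 / 2) ^ 1 := pow_le_pow_of_le_one (by norm_num) (by norm_num) hn
          _ = 1 / 2 := pow_one _
      have hlow : (U₂ : ℝ) * (1 / 2) ^ n ≤ (1 + 1 / (h : ℝ)) ^ n *
          ∑ i ∈ S.filter (fun i => ¬ σ / 2 ≤ r i), (r i / σ) ^ n + 25 * (h : ℝ) ^ 4 := by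
        calc (U₂ : ℝ) * (1 / 2) ^ n
            ≤ ((1 + 1 / (h : ℝ)) ^ n * ∑ i ∈ S.filter (fun i => ¬ σ / 2 ≤ r i),
              (r i / (σ / 2)) ^ n + 50 * (h : ℝ) ^ 4) * (1 / 2) ^ n := by gcongr
          _ ≤ _ := by
            rw [add_mul, mul_assoc, Finset.sum_mul]
            refine add_le_add (le_of_eq ?_) ?_
            · congr 1
              refine Finset.sum_congr rfl fun i _ => ?_
              rw [← mul_pow]; congr 1; field_simp
            · calc 50 * (h : ℝ) ^ 4 * (1 / 2) ^ n ≤ 50 * (h : ℝ) ^ 4 * (1 / 2) := by gcongr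
                _ = _ := by ring
      have h8 : ((2 : ℝ)) ^ 3 = 8 := by norm_num
      linarith

theorem highDimSufficiency (hm : MergeStmt) (hp : PushStmt) : HighDimSufficiency := by
  have main : ∀ n h : ℕ, 1 ≤ n → 1 ≤ h → ∀ (k : ℕ) (R : ℝ) (r : Fin k → ℝ), 0 < R →
      (∀ i, 0 < r i ∧ 2 * r i < R) →
      (1 + 1 / (h : ℝ)) ^ n * ∑ i, r i ^ n + 100 * (h : ℝ) ^ 4 * (R / 2) ^ n ≤ R ^ n →
      HasPacking n R r := by
    intro n h hn hh k R r hR hr hsum
    set σ := R / 2 with hσdef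
    have hσ : 0 < σ := by positivity
    let e : Fin n := ⟨0, hn⟩
    obtain ⟨J, hJ⟩ : ∃ J : ℕ, ∀ i, σ ≤ 2 ^ J * r i := by
      have : ∀ i, ∃ J : ℕ, σ / r i ≤ 2 ^ J := fun i =>
        ((pow_unbounded_of_one_lt (σ / r i) (by norm_num : (1 : ℝ) < 2)).imp fun _ h => h.le)
      choose J hJ using this
      refine ⟨∑ i, J i, fun i => ?_⟩
      rw [← div_le_iff₀ (hr i).1]
      exact (hJ i).trans (pow_le_pow_right₀ (by norm_num)
        (Finset.single_le_sum (fun j _ => Nat.zero_le _) (Finset.mem_univ i)))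
    obtain ⟨U, hU, hb⟩ := units_below hm hp hn e r hh J σ hσ Finset.univ fun i _ =>
      ⟨hJ i, by have := hr i; rw [hσdef]; linarith⟩
    have hU2 : U ≤ 2 ^ n := by
      have hs : (∑ i, (r i / σ) ^ n) = (∑ i, r i ^ n) / σ ^ n := by
        rw [Finset.sum_div]; exact Finset.sum_congr rfl fun i _ => div_pow _ _ _
      rw [hs, ← mul_div_assoc] at hb
      have hσn : 0 < σ ^ n := by positivity
      have : (U : ℝ) ≤ (2 : ℝ) ^ n := by
        refine hb.trans ?_
        rw [← le_sub_iff_add_le, div_le_iff₀ hσn, sub_mul, ← mul_pow]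
        rw [show 2 * σ = R by rw [hσdef]; ring]
        have : 0 ≤ 50 * (h : ℝ) ^ 4 * σ ^ n := by positivity
        linarith
      exact_mod_cast this
    have h2 := ((hU.mono hσ hU2).2.push (hp.2 n e σ hσ))
    rw [show 2 * σ = R by rw [hσdef]; ring] at h2
    have h3 := (h2.toBall hR).reindex
      (⟨fun i => (⟨i, Finset.mem_univ i⟩ : (Finset.univ : Finset (Fin k))),
        fun i j hij => congr_arg Subtype.val hij⟩ : Fin k ↪ (Finset.univ : Finset (Fin k)))
    exact h3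
  refine ⟨main, fun ε hε => ?_⟩
  obtain ⟨c, hc⟩ := exists_nat_gt (1 / Real.log (1 + ε / 2))
  have hlog : 0 < Real.log (1 + ε / 2) := Real.log_pos (by linarith)
  have hc0 : 0 < c := by
    have : (0 : ℝ) < c := lt_trans (by positivity) hc
    exact_mod_cast this
  have hlim : Filter.Tendsto (fun n : ℕ => 100 * (c : ℝ) ^ 4 * ((n : ℝ) ^ 4 / 2 ^ n))
      Filter.atTop (nhds 0) := by
    simpa using (tendsto_pow_const_div_const_pow_of_one_lt 4 (by norm_num : (1 : ℝ) < 2)).const_mul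
      (100 * (c : ℝ) ^ 4)
  obtain ⟨N, hN⟩ := Filter.eventually_atTop.1
    (hlim.eventually (eventually_le_nhds (show (0 : ℝ) < ε / (2 * (1 + ε)) by positivity)))
  refine ⟨max N 1, fun n hn k R r hR hr hsum => ?_⟩
  have hn1 : 1 ≤ n := (le_max_right _ _).trans hn
  refine main n (c * n) hn1 (Nat.one_le_iff_ne_zero.2 (by positivity)) k R r hR hr ?_
  have hexp : (1 + 1 / ((c * n : ℕ) : ℝ)) ^ n ≤ 1 + ε / 2 := by
    calc (1 + 1 / ((c * n : ℕ) : ℝ)) ^ n ≤ Real.exp (1 / ((c * n : ℕ) : ℝ)) ^ n := by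
          gcongr; linarith [Real.add_one_le_exp (1 / ((c * n : ℕ) : ℝ))]
      _ = Real.exp (1 / (c : ℝ)) := by
          rw [← Real.exp_nat_mul]; congr 1
          have : (n : ℝ) ≠ 0 := by positivity
          push_cast; field_simp
      _ ≤ 1 + ε / 2 := by
          rw [← Real.le_log_iff_exp_le (by linarith)] at *
          rw [div_le_iff₀ (by exact_mod_cast hc0)]
          rw [div_lt_iff₀ hlog] at hc
          linarith
  have htail : 100 * ((c * n : ℕ) : ℝ) ^ 4 * (R / 2) ^ n ≤ ε / (2 * (1 + ε)) * R ^ n := by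
    calc 100 * ((c * n : ℕ) : ℝ) ^ 4 * (R / 2) ^ n
        = 100 * (c : ℝ) ^ 4 * ((n : ℝ) ^ 4 / 2 ^ n) * R ^ n := by push_cast; rw [div_pow]; ring
      _ ≤ _ := by
          have := hN n ((le_max_left _ _).trans hn)
          gcongr
  have hsum0 : (0 : ℝ) ≤ ∑ i, r i ^ n := Finset.sum_nonneg fun i _ => pow_nonneg (hr i).1.le n
  have hs' : ∑ i, r i ^ n ≤ R ^ n / (1 + ε) := by
    rw [le_div_iff₀ (by linarith)]; linarith
  calc (1 + 1 / ((c * n : ℕ) : ℝ)) ^ n * ∑ i, r i ^ n + 100 * ((c * n : ℕ) : ℝ) ^ 4 * (R / 2) ^ n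
      ≤ (1 + ε / 2) * (R ^ n / (1 + ε)) + ε / (2 * (1 + ε)) * R ^ n := by gcongr
    _ = R ^ n := by field_simp; ring

end Vale.Agent.P209.Asymp
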