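import Vale.Agent.P209.Asymp.Push
import Vale.Agent.P209.Asymp.Count

/-!
One ball of more than half the size: the others fill the slab left beside it.
-/

namespace Vale.Agent.P209.Asymp

open scoped Topology
open Filter

variable {n : ℕ}

/-- The axis lengths `a` at `c`, and `R` elsewhere. -/
def slabVec (c : Fin n) (a R : ℝ) : Fin n → ℝ := fun k => if k = c then a else R

/-- The doubling stage: `G` raised to `2 s`, `S` to `s p / q`. -/
noncomputable def stage2 (e : Fin n) (s : ℝ) (p q : ℕ) (S G : Finset (Fin n)) (T : ℕ) : Fin n → ℝ :=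
  fun k => if k = e then (T : ℝ) * s else if k ∈ G then 2 * s else if k ∈ S then s * p / q else s

lemma fill_stage2 (hm : MoveGenStmt) {e : Fin n} {s : ℝ} (hs : 0 < s) {p q : ℕ} (hq : 0 < q)
    (hpq : q < p) (S : Finset (Fin n)) {g : ℕ} (G : Finset (Fin n)) :
    e ∉ G → Disjoint S G → G.card ≤ g →
      Fill (stage2 e s p q S ∅ (2 ^ (g + 1))) (stage2 e s p q S G (2 ^ (g + 1 - G.card))) := by
  have hp' : (0 : ℝ) < p := Nat.cast_pos.2 (hq.trans hpq)
  have hq' : (0 : ℝ) < q := Nat.cast_pos.2 hq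
  have hpos : ∀ (G : Finset (Fin n)) (T : ℕ), 1 ≤ T → ∀ k, 0 < stage2 e s p q S G T k := fun G T hT k => by
    have : (0 : ℝ) < T := Nat.cast_pos.2 hT
    unfold stage2; split_ifs <;> positivity
  induction G using Finset.induction_on with
  | empty => exact fun _ _ _ => Fill.of_le (hpos _ _ (Nat.two_pow_pos _)) fun k => le_rfl
  | insert a G haG ih =>
    intro he hd hc
    simp only [Finset.mem_insert, not_or] at he
    rw [Finset.disjoint_insert_right] at hd
    rw [Finset.card_insert_of_notMem haG] at hc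
    refine (ih he.2 hd.2 (by lia)).trans ?_
    obtain ⟨j, hj⟩ : ∃ j, g + 1 - G.card = j + 2 := ⟨g + 1 - G.card - 2, by lia⟩
    rw [Finset.card_insert_of_notMem haG, show g + 1 - (G.card + 1) = j + 1 by lia, hj]
    have hne : a ≠ e := Ne.symm he.1
    have hu : ((2 * 2 ^ j : ℕ) : ℝ) - ((2 ^ j : ℕ) : ℝ) = (2 : ℝ) ^ j := by push_cast; ring
    have h := hm n a e hne s (2 * 2 ^ j) (2 ^ j) hs (by positivity)
      (by have := Nat.two_pow_pos j; lia) (stage2 e s p q S G (2 ^ (j + 2))) (hpos _ _ (Nat.two_pow_pos _))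
      (by simp [stage2, hne, haG, hd.1])
      (by rw [stage2, if_pos rfl, hu]; push_cast; field_simp; ring)
    convert h using 1
    funext k
    rw [hu]
    by_cases hke : k = e
    · subst hke
      rw [Function.update_self, stage2, if_pos rfl]
      push_cast; field_simp; ring
    · rw [Function.update_of_ne hke]
      by_cases hka : k = a
      · subst hka
        rw [Function.update_self, stage2, if_neg hke, if_pos (Finset.mem_insert_self _ _)]
        push_cast; field_simp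
      · rw [Function.update_of_ne hka, stage2, stage2, if_neg hke, if_neg hke]
        simp [hka]

/-- The chain into the slab. -/
lemma fill_slab (hm : MoveGenStmt) {e c : Fin n} (hec : e ≠ c) {s R : ℝ} (hs : 0 < s) (h2 : 2 * s ≤ R)
    {p q : ℕ} (hq : 0 < q) (hpq : q < p) (hpR : s * p / q ≤ R) {g : ℕ} (hg : g + 2 ≤ n) {U : ℕ} (hU : 1 ≤ U)
    (hT : (U : ℝ) * ((q : ℝ) / p) ^ (n - 2 - g) + (p : ℝ) ^ 3 ≤ 2 ^ (g + 1)) :
    Fill (unitVec e s U) (slabVec c s R) := by
  classical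
  set others := (Finset.univ.erase c).erase e
  have hcard : others.card + 2 = n := by
    have h1 := Finset.card_erase_add_one (s := Finset.univ.erase c)
      (Finset.mem_erase.2 ⟨hec, Finset.mem_univ e⟩)
    have h2 := Finset.card_erase_add_one (s := (Finset.univ : Finset (Fin n))) (Finset.mem_univ c)
    rw [Finset.card_univ, Fintype.card_fin] at h2
    show ((Finset.univ.erase c).erase e).card + 2 = n
    lia
  obtain ⟨G, hG, hGc⟩ := Finset.exists_subset_card_eq (s := others) (n := g) (by lia)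
  set S := others \ G
  have hSc : S.card = n - 2 - g := by rw [Finset.card_sdiff_of_subset hG, hGc]; lia
  have heo : e ∉ others := Finset.notMem_erase _ _
  obtain ⟨T, hT1, hTle, hF⟩ := fill_stage hm.move (e := e) hs hq hpq hU S
    fun h => heo (Finset.mem_sdiff.1 h).1
  rw [hSc] at hTle
  have hT2 : T ≤ 2 ^ (g + 1) := by exact_mod_cast hTle.trans hT
  have h0 : stage e s p q ∅ U = unitVec e s U := by funext k; simp [stage, unitVec]
  rw [h0] at hF
  have hmid : Fill (stage e s p q S T) (stage2 e s p q S ∅ (2 ^ (g + 1))) := by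
    refine Fill.of_le (stage_pos hs hq hpq S hT1) fun k => ?_
    unfold stage stage2
    simp only [Finset.notMem_empty, if_false]
    split_ifs
    · exact mul_le_mul_of_nonneg_right (by exact_mod_cast hT2) hs.le
    all_goals exact le_rfl
  refine hF.trans (hmid.trans ((fill_stage2 hm hs hq hpq S G (fun h => heo (hG h))
    Finset.sdiff_disjoint hGc.le).trans ?_))
  rw [hGc, show g + 1 - g = 1 by lia]
  refine Fill.of_le (fun k => ?_) fun k => ?_
  · have : (0 : ℝ) < q := Nat.cast_pos.2 hq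
    have : (0 : ℝ) < p := Nat.cast_pos.2 (hq.trans hpq)
    unfold stage2; split_ifs <;> positivity
  · unfold stage2 slabVec
    by_cases hke : k = e
    · subst hke; simp [hec, h2]
    by_cases hkc : k = c
    · subst hkc
      have h1 : k ∉ others := by simp [others]
      have h2' : k ∉ G := fun h => h1 (hG h)
      have h3 : k ∉ S := fun h => h1 (Finset.mem_sdiff.1 h).1
      simp [hke, h2', h3]
    have : k ∈ others := by simp [others, hke, hkc]
    rw [if_neg hke, if_neg hkc]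
    by_cases hkG : k ∈ G
    · rw [if_pos hkG]; exact h2
    · rw [if_neg hkG, if_pos (Finset.mem_sdiff.2 ⟨this, hkG⟩)]; exact hpR

/-- A big ball beside the slab. -/
lemma hasPacking_slab {c : Fin n} {k : ℕ} {R a : ℝ} {r : Fin k → ℝ} (i0 : Fin k) (ha : 0 < a)
    (h0 : 0 < r i0) (hra : r i0 + a < R) (h : PacksIn (slabVec c a R) fun i : {i // i ≠ i0} => r i) :
    HasPacking n R r := by
  classical
  have hn : 0 < n := Fin.pos_iff_nonempty.2 ⟨c⟩
  have hR : 0 < R := by linarith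
  obtain ⟨θ, hθ0, hθ1, φ, W, hW, hd⟩ := h
  obtain ⟨U, ψ, hU, hsub, hs, hi, hω, hψ⟩ :=
    exists_ball_map (r := r i0) (δ := R - a - r i0) hn h0.le (by linarith)
  obtain ⟨T, hT, hT'⟩ := exists_rowMap c (r := 0) rfl a isOpen_nonzero fun z hz => ⟨hz, by
    have := act_pos' (hz c); simp only [Pi.zero_apply, Int.cast_zero, zero_mul, Finset.sum_const_zero]; linarith⟩
  have hbig : IsSympEmbOn U (T ∘ ψ) := by
    have h1 : IsSympEmbOn U ψ := ⟨hU, hs.contDiffOn, fun x _ => hω x,
      isOpenEmbedding_of_symp hU hs.contDiffOn (fun x _ => hω x) hi.injOn⟩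
    have := isSympEmbOn_comp h1 hT
    have hsub' : U ⊆ ψ ⁻¹' {z | ∀ k, z k ≠ 0} := fun x hx => (hψ x hx).1
    rwa [Set.inter_eq_left.2 hsub'] at this
  have hbig' : ∀ x ∈ U, capacity (T (ψ x)) < R ∧ a < act (T (ψ x)) c := by
    intro x hx
    obtain ⟨hne, hlt⟩ := hψ x hx
    obtain ⟨-, hact⟩ := hT' (ψ x) hne
    simp only [Pi.zero_apply, Int.cast_zero, zero_mul, Finset.sum_const_zero, zero_add] at hact
    refine ⟨?_, ?_⟩
    · rw [capacity_eq, Finset.sum_congr rfl fun k _ => hact k, Finset.sum_add_distrib]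
      simp; linarith
    · rw [hact, if_pos rfl]; linarith [act_pos' (hne c)]
  have hsmall : ∀ i, ∀ x ∈ W i, capacity (φ i x) < R ∧ act (φ i x) c < a := by
    intro i x hx
    obtain ⟨hne, hlt⟩ := (hW i).2.2 hx
    rw [← Finset.add_sum_erase _ _ (Finset.mem_univ c), Finset.sum_congr rfl fun k hk =>
      show act (φ i x) k / slabVec c a R k = act (φ i x) k / R by
        rw [slabVec, if_neg (Finset.ne_of_mem_erase hk)], slabVec, if_pos rfl, ← Finset.sum_div] at hlt
    have h1 : 0 ≤ ∑ k ∈ Finset.univ.erase c, act (φ i x) k :=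
      Finset.sum_nonneg fun k _ => (act_pos' (hne k)).le
    have hc0 := act_pos' (hne c)
    have h2 : act (φ i x) c / R ≤ act (φ i x) c / a :=
      div_le_div_of_nonneg_left hc0.le ha (by linarith)
    refine ⟨?_, ?_⟩
    · rw [capacity_eq, ← Finset.add_sum_erase _ _ (Finset.mem_univ c), ← div_lt_one hR, add_div]
      linarith
    · rw [← div_lt_one ha]
      have : 0 ≤ (∑ k ∈ Finset.univ.erase c, act (φ i x) k) / R := div_nonneg h1 hR.le
      linarith
  refine ⟨fun i => if hi : i = i0 then T ∘ ψ else φ ⟨i, hi⟩, fun i => ?_, fun i x hx => ?_, fun i j hij => ?_⟩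
  · by_cases hi : i = i0
    · subst hi; simp only [dite_true]; exact ⟨U, hsub, hbig⟩
    · simp only [dif_neg hi]; exact ⟨W ⟨i, hi⟩, (hW ⟨i, hi⟩).1, (hW ⟨i, hi⟩).2.1⟩
  · by_cases hi : i = i0
    · subst hi; simp only [dite_true]; exact (hbig' x (hsub hx)).1
    · simp only [dif_neg hi]; exact (hsmall _ x ((hW ⟨i, hi⟩).1 hx)).1
  · dsimp only
    rw [Set.disjoint_left]
    rintro p ⟨x, hx, rfl⟩ ⟨y, hy, he⟩
    by_cases hi : i = i0 <;> by_cases hj : j = i0
    · exact hij (hi.trans hj.symm)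
    · subst hi
      simp only [dite_true, dif_neg hj, Function.comp_apply] at he
      have := (hsmall ⟨j, hj⟩ y ((hW _).1 hy)).2
      rw [he] at this
      linarith [(hbig' x (hsub hx)).2]
    · subst hj
      simp only [dite_true, dif_neg hi, Function.comp_apply] at he
      have := (hsmall ⟨i, hi⟩ x ((hW _).1 hx)).2
      rw [← he] at this
      linarith [(hbig' y (hsub hy)).2]
    · simp only [dif_neg hi, dif_neg hj] at he
      exact Set.disjoint_left.1 (hd (show (⟨i, hi⟩ : {l // l ≠ i0}) ≠ ⟨j, hj⟩ from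
        fun h => hij (congr_arg Subtype.val h))) ⟨x, (hW _).1 hx, rfl⟩ ⟨y, (hW _).1 hy, he⟩

theorem capacityAsymptotic (hm : MergeStmt) (hmv : MoveGenStmt) : CapacityAsymptotic := by
  classical
  intro ε hε hε1
  have hp : PushStmt := pushStmt_of_move hmv.move
  obtain ⟨h, hh⟩ := exists_nat_gt (4 / ε)
  have hh4 : (4 : ℝ) < h := lt_of_le_of_lt (by rw [le_div_iff₀ hε]; linarith) hh
  have hh1 : 1 ≤ h := by
    have : (0 : ℝ) < h := by linarith
    exact_mod_cast this
  have hinv : 1 / (h : ℝ) ≤ ε / 4 := by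
    rw [div_le_iff₀ (by linarith)]
    rw [div_lt_iff₀ hε] at hh
    linarith
  set ρ := (1 + 1 / (h : ℝ)) ^ 2 * (1 - ε)
  have hρ0 : 0 ≤ ρ := mul_nonneg (sq_nonneg _) (by linarith)
  have hρ1 : ρ < 1 := by
    have h1 : (1 + 1 / (h : ℝ)) ^ 2 ≤ (1 + ε / 4) ^ 2 := by gcongr
    have h2 : ρ ≤ (1 + ε / 4) ^ 2 * (1 - ε) := mul_le_mul_of_nonneg_right h1 (by linarith)
    nlinarith [mul_pos hε hε, mul_pos (mul_pos hε hε) hε]
  obtain ⟨g, hg⟩ := pow_unbounded_of_one_lt (1 + 50 * (h : ℝ) ^ 4 + (2 * h / ε) ^ 3)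
    (by norm_num : (1 : ℝ) < 2)
  obtain ⟨N₂, hN₂⟩ := (highDimSufficiency hm hp).2 1 one_pos
  have e1 : ∀ᶠ n : ℕ in atTop, ρ ^ n * (2 / ε) ^ (g + 2) ≤ 1 := by
    have := (tendsto_pow_atTop_nhds_zero_of_lt_one hρ0 hρ1).mul_const ((2 / ε) ^ (g + 2))
    rw [zero_mul] at this
    exact this.eventually (eventually_le_nhds one_pos)
  have e2 : ∀ᶠ n : ℕ in atTop, 2 * (1 - ε) ^ n ≤ 1 := by
    have := (tendsto_pow_atTop_nhds_zero_of_lt_one (by linarith : (0 : ℝ) ≤ 1 - ε)
      (by linarith : 1 - ε < 1)).const_mul 2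
    rw [mul_zero] at this
    exact this.eventually (eventually_le_nhds one_pos)
  obtain ⟨N, hN⟩ := eventually_atTop.1 ((e1.and e2).and
    ((eventually_ge_atTop (g + 2)).and (eventually_ge_atTop N₂)))
  refine ⟨N, fun n hn k R r hR hr hpair hsum => ?_⟩
  obtain ⟨⟨hρn, hεn⟩, hgn, hn₂⟩ := hN n hn
  by_cases hbig : ∀ i, 2 * r i < R
  · refine hN₂ n hn₂ k R r hR (fun i => ⟨hr i, hbig i⟩) ?_
    have hRn : 0 < R ^ n := pow_pos hR n
    rw [mul_pow] at hsum
    nlinarith
  push Not at hbig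
  obtain ⟨i0, hi0⟩ := hbig
  have hn1 : 1 ≤ n := by lia
  have hr0 : r i0 ≤ (1 - ε) * R := le_of_pow_le_pow_left₀ (by lia) (by nlinarith)
    ((Finset.single_le_sum (f := fun i => r i ^ n) (fun j _ => pow_nonneg (hr j).le n)
      (Finset.mem_univ i0)).trans hsum)
  obtain ⟨a, ha0, has, hac⟩ := exists_between'
    (c := fun o : Option {i // i ≠ i0} => o.elim (ε * R / 2) fun i => r i) (s := R - r i0)
    (by nlinarith) (by
      rintro (_ | i)
      · show ε * R / 2 < R - r i0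
        nlinarith
      · show r i < R - r i0
        linarith [hpair i i0 i.2])
  have haε : ε * R / 2 < a := hac none
  have har : ∀ i, i ≠ i0 → r i < a := fun i hi => hac (some ⟨i, hi⟩)
  have h2a : 2 * a ≤ R := by linarith
  -- the other balls as units of size `a`
  set S := Finset.univ.erase i0
  obtain ⟨J, hJ⟩ : ∃ J : ℕ, ∀ i, a ≤ 2 ^ J * r i := by
    choose J hJ using fun i => (pow_unbounded_of_one_lt (a / r i) (by norm_num : (1 : ℝ) < 2))
    refine ⟨∑ i, J i, fun i => ?_⟩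
    rw [← div_le_iff₀ (hr i)]
    exact (hJ i).le.trans (pow_le_pow_right₀ (by norm_num)
      (Finset.single_le_sum (fun j _ => Nat.zero_le _) (Finset.mem_univ i)))
  let e : Fin n := ⟨0, by lia⟩
  let c : Fin n := ⟨1, by lia⟩
  have hec : e ≠ c := by simp [e, c, Fin.ext_iff]
  obtain ⟨U, hU, hUb⟩ := units_below hm hp hn1 e r hh1 J a ha0 S
    fun i hi => ⟨hJ i, har i (Finset.ne_of_mem_erase hi)⟩
  -- the parameters of the chain
  set x := (h : ℝ) * R / a
  have hx2 : 2 * (h : ℝ) ≤ x := by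
    rw [le_div_iff₀ ha0]; nlinarith
  set p := ⌊x⌋₊
  have hp2 : 2 * h ≤ p := Nat.le_floor (by push_cast; exact hx2)
  have hpx : (p : ℝ) ≤ x := Nat.floor_le (by positivity)
  have hxp : x < p + 1 := Nat.lt_floor_add_one x
  have hp' : (0 : ℝ) < p := Nat.cast_pos.2 (by lia)
  have hh' : (0 : ℝ) < h := by linarith
  have hpR : a * p / h ≤ R := by
    rw [div_le_iff₀ hh']
    rw [le_div_iff₀ ha0] at hpx
    linarith
  have hpε : (p : ℝ) ≤ 2 * h / ε := by
    refine hpx.trans ?_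
    rw [div_le_div_iff₀ ha0 hε]
    nlinarith
  have hratio : R / a * ((h : ℝ) / p) ≤ 1 + 1 / (h : ℝ) := by
    have h1 : x / p ≤ 1 + 1 / (h : ℝ) := by
      rw [div_le_iff₀ hp']
      have : 1 ≤ (p : ℝ) / h := by
        rw [le_div_iff₀ hh', one_mul]
        exact_mod_cast (show h ≤ p by lia)
      rw [add_mul, one_mul, div_mul_eq_mul_div, one_mul]
      linarith
    refine le_trans (le_of_eq ?_) h1
    simp only [x]; field_simp
  have hT : (U : ℝ) * ((h : ℝ) / p) ^ (n - 2 - g) + (p : ℝ) ^ 3 ≤ 2 ^ (g + 1) := by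
    have hS : ∑ i ∈ S, (r i / a) ^ n ≤ ((1 - ε) * (R / a)) ^ n := by
      rw [show (1 - ε) * (R / a) = (1 - ε) * R / a by ring, div_pow, le_div_iff₀ (pow_pos ha0 n),
        Finset.sum_mul]
      refine le_trans (le_of_eq (Finset.sum_congr rfl fun i _ => ?_))
        ((Finset.sum_le_univ_sum_of_nonneg (fun i => pow_nonneg (hr i).le n)).trans hsum)
      rw [div_pow, div_mul_cancel₀ _ (pow_pos ha0 n).ne']
    have hq0 : 0 ≤ (h : ℝ) / p := by positivity
    have hq1 : (h : ℝ) / p ≤ 1 := (div_le_one hp').2 (by exact_mod_cast (show h ≤ p by lia))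
    have hbase : 0 ≤ (1 - ε) * (R / a) := mul_nonneg (by linarith) (by positivity)
    have hm1 : (1 + 1 / (h : ℝ)) ^ n * ((1 - ε) * (R / a)) ^ n * ((h : ℝ) / p) ^ n ≤ ρ ^ n := by
      rw [← mul_pow, ← mul_pow]
      refine pow_le_pow_left₀ (by positivity) ?_ n
      calc (1 + 1 / (h : ℝ)) * ((1 - ε) * (R / a)) * ((h : ℝ) / p)
          = (1 + 1 / (h : ℝ)) * (1 - ε) * (R / a * ((h : ℝ) / p)) := by ring
        _ ≤ (1 + 1 / (h : ℝ)) * (1 - ε) * (1 + 1 / (h : ℝ)) :=
          mul_le_mul_of_nonneg_left hratio (mul_nonneg (by positivity) (by linarith))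
        _ = ρ := by simp only [ρ]; ring
    have hinv2 : ((h : ℝ) / p) ^ (n - 2 - g) = ((h : ℝ) / p) ^ n * ((p : ℝ) / h) ^ (g + 2) := by
      conv_rhs => rw [show n = (n - 2 - g) + (g + 2) by lia, pow_add]
      rw [mul_assoc, ← mul_pow, div_mul_div_cancel₀ hp'.ne', div_self hh'.ne', one_pow, mul_one]
    have hmain : (1 + 1 / (h : ℝ)) ^ n * (∑ i ∈ S, (r i / a) ^ n) * ((h : ℝ) / p) ^ (n - 2 - g) ≤ 1 := by
      calc _ ≤ (1 + 1 / (h : ℝ)) ^ n * ((1 - ε) * (R / a)) ^ n * ((h : ℝ) / p) ^ (n - 2 - g) := by gcongr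
        _ = (1 + 1 / (h : ℝ)) ^ n * ((1 - ε) * (R / a)) ^ n * ((h : ℝ) / p) ^ n *
            ((p : ℝ) / h) ^ (g + 2) := by rw [hinv2]; ring
        _ ≤ ρ ^ n * (2 / ε) ^ (g + 2) := by
          refine mul_le_mul hm1 (pow_le_pow_left₀ (by positivity) ?_ _) (by positivity) (pow_nonneg hρ0 n)
          rw [div_le_div_iff₀ hh' hε]
          rw [le_div_iff₀ hε] at hpε
          linarith
        _ ≤ 1 := hρn
    calc (U : ℝ) * ((h : ℝ) / p) ^ (n - 2 - g) + (p : ℝ) ^ 3
        ≤ ((1 + 1 / (h : ℝ)) ^ n * (∑ i ∈ S, (r i / a) ^ n) + 50 * (h : ℝ) ^ 4) *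
            ((h : ℝ) / p) ^ (n - 2 - g) + (2 * h / ε) ^ 3 := by
          gcongr
      _ ≤ 1 + 50 * (h : ℝ) ^ 4 + (2 * h / ε) ^ 3 := by
          rw [add_mul]
          have : 50 * (h : ℝ) ^ 4 * ((h : ℝ) / p) ^ (n - 2 - g) ≤ 50 * (h : ℝ) ^ 4 :=
            mul_le_of_le_one_right (by positivity) (pow_le_one₀ hq0 hq1)
          linarith
      _ ≤ 2 ^ (g + 1) := hg.le.trans (pow_le_pow_right₀ (by norm_num) (by lia))
  have hin := hU.2.push (fill_slab hmv hec ha0 h2a (by lia) (show h < p by lia) hpR hgn hU.1 hT)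
  exact hasPacking_slab (c := c) i0 ha0 (hr i0) (by linarith) (hin.reindex
    ⟨fun i : {i // i ≠ i0} => (⟨i, Finset.mem_erase.2 ⟨i.2, Finset.mem_univ _⟩⟩ : S),
      fun i j hij => Subtype.ext (congr_arg (fun z : S => (z : Fin k)) hij)⟩)

end Vale.Agent.P209.Asymp
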