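import Vale.Agent.P209.Asymp.DefsGen

/-!
P209, high dimensions: the slab beside a big ball, cut into `n` ellipsoids.
-/

namespace Vale.Agent.P209.Asymp

variable {n : ℕ}

/-- The axis lengths of the piece `j` of the slab `b < ∑ μ < R`, where `a + b = R`. -/
def pieceVec (j : Fin n) (a b R : ℝ) : Fin n → ℝ :=
  fun k => if k = j then a else if k < j then b else R

/-- The ball of capacity below `b` and the pieces are disjoint in the ball of capacity `R`. -/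
def PieceStmt : Prop :=
  ∀ (n k : ℕ) (R a b : ℝ) (r : Fin k → ℝ) (i0 : Fin k) (f : {i // i ≠ i0} → Fin n),
    0 < a → 0 < b → a + b = R → 0 < r i0 → r i0 < b →
    (∀ j, PacksIn (pieceVec j a b R) fun i : {i // f i = j} => r i.1) → HasPacking n R r

/-- Units of size `a` pushed into one piece, up to the factor `(1 + 1/h)^n` and a small error. -/
def PieceFillStmt : Prop :=
  ∀ (n : ℕ) (j e : Fin n) (a b R : ℝ) (h g U : ℕ), 0 < a → 2 * a ≤ R → a ≤ b → b ≤ R → 1 ≤ h →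
    2 ≤ g → (j : ℕ) + g + 1 < n → j < e → 1 ≤ U →
    (1 + 1 / (h : ℝ)) ^ n * U * a ^ (n - 1) / (b ^ (j : ℕ) * R ^ (n - 1 - (j : ℕ)))
      + 16 * (h : ℝ) ^ 3 / 2 ^ g ≤ 1 →
    Fill (unitVec e a U) (pieceVec j a b R)

/-- Units of size `a` pushed into any box with `G.card + 1` equal long axes. -/
def BoxFillStmt : Prop :=
  ∀ (n : ℕ) (e : Fin n) (G : Finset (Fin n)) (A : Fin n → ℝ) (a t : ℝ) (h U : ℕ), 0 < a → 2 * a ≤ t →
    1 ≤ h → 2 ≤ G.card → e ∉ G → (∀ k, a ≤ A k ∧ A k ≤ 2 * t) → (∀ k ∈ insert e G, A k = t) → 1 ≤ U →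
    (1 + 1 / (h : ℝ)) ^ n * U * a ^ n / ∏ k, A k + 256 * (h : ℝ) ^ 3 / 2 ^ G.card ≤ 1 →
    Fill (unitVec e a U) A

/-- Sufficiency up to an exponentially small volume defect for `n ≥ 768`, counted outside one ball of any size. -/
def VolumeExponential : Prop :=
  ∀ n : ℕ, 768 ≤ n → ∀ (k : ℕ) (R : ℝ) (r : Fin k → ℝ), 0 < R →
    (∀ i, 0 < r i ∧ r i < R) → (∀ i j, i ≠ j → r i + r j < R) →
    ∀ p : Fin k, r p ^ n + (1 + 1 / (2 : ℝ) ^ (n / 16)) * ∑ i ∈ Finset.univ.erase p, r i ^ n ≤ R ^ n →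
      HasPacking n R r

/-- Sufficiency up to any volume factor above one, counted outside one ball of any size. -/
def VolumeAsymptotic : Prop :=
  ∀ ε : ℝ, 0 < ε → ∃ N : ℕ, ∀ n, N ≤ n → ∀ (k : ℕ) (R : ℝ) (r : Fin k → ℝ), 0 < R →
    (∀ i, 0 < r i ∧ r i < R) → (∀ i j, i ≠ j → r i + r j < R) →
    ∀ p : Fin k, r p ^ n + (1 + ε) * ∑ i ∈ Finset.univ.erase p, r i ^ n ≤ R ^ n → HasPacking n R r

end Vale.Agent.P209.Asymp
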