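import Vale.Agent.P209.Asymp.Push
import Vale.Agent.P209.Asymp.VolDefs

/-!
P209: units pushed into a box, every axis by its own ratio.
-/

namespace Vale.Agent.P209.Asymp

open Finset

variable {n : ℕ}

/-- The axes in `S` raised to `a p k / h`, the long axis of absolute length `T a`. -/
noncomputable def vstage (e : Fin n) (a : ℝ) (p : Fin n → ℕ) (h : ℕ) (S : Finset (Fin n)) (T : ℕ) :
    Fin n → ℝ :=
  fun k => if k = e then (T : ℝ) * a else if k ∈ S then a * p k / h else a

lemma vstage_pos {e : Fin n} {a : ℝ} (ha : 0 < a) {p : Fin n → ℕ} {h : ℕ} (hh : 0 < h) (S : Finset (Fin n))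
    (hp : ∀ k ∈ S, h ≤ p k) {T : ℕ} (hT : 1 ≤ T) (k : Fin n) : 0 < vstage e a p h S T k := by
  have : (0 : ℝ) < T := Nat.cast_pos.2 hT
  have : (0 : ℝ) < h := Nat.cast_pos.2 hh
  unfold vstage
  split_ifs with h1 h2
  · positivity
  · have : (0 : ℝ) < p k := Nat.cast_pos.2 (hh.trans_le (hp k h2))
    positivity
  · exact ha

/-- One exact move with its own ratio. -/
lemma fill_vstep (hm : MoveGenStmt) {e k₀ : Fin n} (hne : k₀ ≠ e) {a : ℝ} (ha : 0 < a) {p : Fin n → ℕ}
    {h : ℕ} (hh : 0 < h) {S : Finset (Fin n)} (hp : ∀ k ∈ S, h ≤ p k) (hk : k₀ ∉ S) (hpk : h < p k₀)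
    {m : ℕ} (hm0 : 1 ≤ m) :
    Fill (vstage e a p h S (m * p k₀ ^ 2)) (vstage e a p h (insert k₀ S) (m * p k₀ * h)) := by
  have hp0 : 0 < p k₀ := hh.trans hpk
  set u := (p k₀ - h) * m * p k₀
  set w := (p k₀ - h) * m * h
  have hd : 0 < p k₀ - h := Nat.sub_pos_of_lt hpk
  have hw : 0 < w := by positivity
  have hwu : w < u := Nat.mul_lt_mul_of_pos_left hpk (by positivity)
  have hcast : ((p k₀ - h : ℕ) : ℝ) = (p k₀ : ℝ) - h := by rw [Nat.cast_sub hpk.le]
  have hd' : (0 : ℝ) < (p k₀ : ℝ) - h := sub_pos.2 (Nat.cast_lt.2 hpk)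
  have hh' : (0 : ℝ) < h := Nat.cast_pos.2 hh
  have hp' : (0 : ℝ) < p k₀ := Nat.cast_pos.2 hp0
  have hm' : (0 : ℝ) < m := Nat.cast_pos.2 hm0
  have hu : (u : ℝ) = ((p k₀ : ℝ) - h) * m * p k₀ := by simp only [u, Nat.cast_mul, hcast]
  have hwr : (w : ℝ) = ((p k₀ : ℝ) - h) * m * h := by simp only [w, Nat.cast_mul, hcast]
  have hsub : (u : ℝ) - w = ((p k₀ : ℝ) - h) * m * ((p k₀ : ℝ) - h) := by rw [hu, hwr]; ring
  have h1 := hm n k₀ e hne a u w ha hw hwu (vstage e a p h S (m * p k₀ ^ 2))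
    (vstage_pos ha hh S hp (Nat.mul_pos hm0 (Nat.pow_pos hp0)))
    (by simp [vstage, hne, hk])
    (by rw [vstage, if_pos rfl, hsub, hu]; push_cast; field_simp)
  convert h1 using 1
  funext k
  rw [hsub, hu, hwr]
  by_cases hke : k = e
  · subst hke
    rw [Function.update_self, vstage, if_pos rfl]
    push_cast
    field_simp
  · rw [Function.update_of_ne hke]
    by_cases hka : k = k₀
    · subst hka
      rw [Function.update_self, vstage, if_neg hke, if_pos (Finset.mem_insert_self _ _)]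
      field_simp
    · rw [Function.update_of_ne hka, vstage, vstage, if_neg hke, if_neg hke]
      simp [hka]

/-- Raising the axes in `S`, with additive loss at most `P ^ 3`. -/
lemma fill_vstage (hm : MoveGenStmt) {e : Fin n} {a : ℝ} (ha : 0 < a) {p : Fin n → ℕ} {h P : ℕ}
    (hh : 0 < h) {U : ℕ} (hU : 1 ≤ U) (S : Finset (Fin n)) :
    e ∉ S → (∀ k ∈ S, h ≤ p k ∧ p k ≤ P) →
    ∃ T : ℕ, 1 ≤ T ∧ (T : ℝ) ≤ U * ∏ k ∈ S, ((h : ℝ) / p k) + (P : ℝ) ^ 3 ∧
      Fill (vstage e a p h ∅ U) (vstage e a p h S T) := by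
  induction S using Finset.induction_on with
  | empty =>
    exact fun _ _ => ⟨U, hU, by simp, Fill.of_le (vstage_pos ha hh _ (by simp) hU) fun k => le_rfl⟩
  | insert b S hbS ih =>
    intro he hp
    simp only [Finset.mem_insert, not_or] at he
    obtain ⟨T, hT, hTle, hF⟩ := ih he.2 fun k hk => hp k (Finset.mem_insert_of_mem hk)
    obtain ⟨hhb, hbP⟩ := hp b (Finset.mem_insert_self _ _)
    have hh' : (0 : ℝ) < h := Nat.cast_pos.2 hh
    have hb' : (0 : ℝ) < p b := Nat.cast_pos.2 (hh.trans_le hhb)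
    have hpS : ∀ k ∈ S, h ≤ p k := fun k hk => (hp k (Finset.mem_insert_of_mem hk)).1
    rcases hhb.eq_or_lt with heq | hlt
    · refine ⟨T, hT, ?_, hF.trans (Fill.of_le (vstage_pos ha hh S hpS hT) fun k => ?_)⟩
      · rw [Finset.prod_insert hbS, ← heq, div_self hh'.ne', one_mul]
        exact hTle
      · unfold vstage
        by_cases hke : k = e
        · rw [if_pos hke, if_pos hke]
        · rw [if_neg hke, if_neg hke]
          by_cases hkb : k = b
          · subst hkb
            rw [if_neg hbS, if_pos (Finset.mem_insert_self _ _), ← heq, mul_div_assoc, div_self hh'.ne',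
              mul_one]
          · simp [hkb]
    · have hp2 : 0 < p b ^ 2 := Nat.pow_pos (hh.trans hlt)
      set m := (T + (p b ^ 2 - 1)) / p b ^ 2
      have hlt2 : T + (p b ^ 2 - 1) < m * p b ^ 2 + p b ^ 2 := Nat.lt_div_mul_add hp2
      have hle : m * p b ^ 2 ≤ T + (p b ^ 2 - 1) := Nat.div_mul_le_self _ _
      have hTm : T ≤ m * p b ^ 2 := by lia
      have hm0 : 1 ≤ m := by
        rcases Nat.eq_zero_or_pos m with h0 | h0
        · rw [h0] at hTm; lia
        · exact h0
      refine ⟨m * p b * h, Nat.mul_pos (Nat.mul_pos hm0 (hh.trans hlt)) hh, ?_, hF.trans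
        ((Fill.of_le (vstage_pos ha hh S hpS hT) fun k => ?_).trans
          (fill_vstep hm (Ne.symm he.1) ha hh hpS hbS hlt hm0))⟩
      · rw [Finset.prod_insert hbS]
        have hmr : (m : ℝ) * (p b : ℝ) ^ 2 ≤ T + (p b : ℝ) ^ 2 := by
          exact_mod_cast (show m * p b ^ 2 ≤ T + p b ^ 2 by lia)
        have h1 : (m : ℝ) * p b * h ≤ (h : ℝ) / p b * (T + (p b : ℝ) ^ 2) := by
          rw [div_mul_eq_mul_div, le_div_iff₀ hb']
          have := mul_le_mul_of_nonneg_left hmr hh'.le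
          linarith
        have h3 : (h : ℝ) / p b * ((P : ℝ) ^ 3 + (p b : ℝ) ^ 2) ≤ (P : ℝ) ^ 3 := by
          rw [div_mul_eq_mul_div, div_le_iff₀ hb']
          have e1 : (h : ℝ) + 1 ≤ p b := by exact_mod_cast hlt
          have e2 : (h : ℝ) * (p b : ℝ) ^ 2 ≤ (P : ℝ) ^ 3 := by
            calc (h : ℝ) * (p b : ℝ) ^ 2 ≤ (P : ℝ) * (P : ℝ) ^ 2 := by
                  have : (p b : ℝ) ≤ P := by exact_mod_cast hbP
                  gcongr
                  linarith
              _ = _ := by ring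
          have := mul_le_mul_of_nonneg_left e1 (pow_nonneg (Nat.cast_nonneg (α := ℝ) P) 3)
          linarith
        have h2 : (h : ℝ) / p b * (T + (p b : ℝ) ^ 2) ≤
            (h : ℝ) / p b * (U * ∏ k ∈ S, ((h : ℝ) / p k) + (P : ℝ) ^ 3 + (p b : ℝ) ^ 2) :=
          mul_le_mul_of_nonneg_left (by linarith) (by positivity)
        push_cast
        linarith
      · unfold vstage
        split_ifs
        · exact mul_le_mul_of_nonneg_right (by exact_mod_cast hTm) ha.le
        all_goals exact le_rfl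

/-- The last, exact stage: the axes in `G'` raised from `s` to `N s`. -/
noncomputable def xstage (e : Fin n) (s : ℝ) (N : ℕ) (L : Fin n → ℝ) (G' : Finset (Fin n)) (T : ℕ) :
    Fin n → ℝ :=
  fun k => if k = e then (T : ℝ) * s else if k ∈ G' then s * N else L k

lemma fill_xstage (hm : MoveGenStmt) {e : Fin n} {s : ℝ} (hs : 0 < s) {N : ℕ} (hN : 2 ≤ N)
    {L : Fin n → ℝ} (hL : ∀ k, k ≠ e → 0 < L k) {g : ℕ} (G : Finset (Fin n)) :
    e ∉ G → (∀ k ∈ G, L k = s) → G.card ≤ g →
      Fill (xstage e s N L ∅ (N ^ (g + 1))) (xstage e s N L G (N ^ (g + 1 - G.card))) := by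
  have hN' : (0 : ℝ) < N := by positivity
  have hN1 : (0 : ℝ) < (N : ℝ) - 1 := by
    have : (2 : ℝ) ≤ N := by exact_mod_cast hN
    linarith
  have hpos : ∀ (G : Finset (Fin n)) (T : ℕ), 1 ≤ T → ∀ k, 0 < xstage e s N L G T k := fun G T hT k => by
    have : (0 : ℝ) < T := Nat.cast_pos.2 hT
    unfold xstage
    split_ifs with h1 h2
    · positivity
    · positivity
    · exact hL k h1
  induction G using Finset.induction_on with
  | empty => exact fun _ _ _ => Fill.of_le (hpos _ _ (Nat.one_le_pow _ _ (by lia))) fun k => le_rfl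
  | insert b G hbG ih =>
    intro he hLs hc
    simp only [Finset.mem_insert, not_or] at he
    rw [Finset.card_insert_of_notMem hbG] at hc
    refine (ih he.2 (fun k hk => hLs k (Finset.mem_insert_of_mem hk)) (by lia)).trans ?_
    obtain ⟨i, hi⟩ : ∃ i, g + 1 - G.card = i + 2 := ⟨g + 1 - G.card - 2, by lia⟩
    rw [Finset.card_insert_of_notMem hbG, show g + 1 - (G.card + 1) = i + 1 by lia, hi]
    have hne : b ≠ e := Ne.symm he.1
    have hu : (((N - 1) * N ^ i * N : ℕ) : ℝ) - (((N - 1) * N ^ i : ℕ) : ℝ)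
        = ((N : ℝ) - 1) ^ 2 * (N : ℝ) ^ i := by
      push_cast [Nat.cast_sub (show 1 ≤ N by lia)]; ring
    have hw0 : 0 < (N - 1) * N ^ i := Nat.mul_pos (by lia) (Nat.pow_pos (by lia))
    have h := hm n b e hne s ((N - 1) * N ^ i * N) ((N - 1) * N ^ i) hs hw0
      (lt_mul_of_one_lt_right hw0 (by lia)) (xstage e s N L G (N ^ (i + 2)))
      (hpos _ _ (Nat.one_le_pow _ _ (by lia)))
      (by simp [xstage, hne, hbG, hLs b (Finset.mem_insert_self _ _)])
      (by
        rw [xstage, if_pos rfl, hu]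
        push_cast [Nat.cast_sub (show 1 ≤ N by lia)]
        field_simp
        ring)
    convert h using 1
    funext k
    rw [hu]
    by_cases hke : k = e
    · subst hke
      rw [Function.update_self, xstage, if_pos rfl]
      push_cast [Nat.cast_sub (show 1 ≤ N by lia)]
      field_simp
      ring
    · rw [Function.update_of_ne hke]
      by_cases hkb : k = b
      · subst hkb
        rw [Function.update_self, xstage, if_neg hke, if_pos (Finset.mem_insert_self _ _)]
        push_cast [Nat.cast_sub (show 1 ≤ N by lia)]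
        field_simp
      · rw [Function.update_of_ne hkb, xstage, xstage, if_neg hke, if_neg hke]
        simp [hkb]

theorem boxFillStmt_of_move (hmv : MoveGenStmt) : BoxFillStmt := by
  classical
  intro n e G A a t h U ha h2a hh hg heG hA hAt hU hyp
  have ht : 0 < t := by linarith
  have hh' : (0 : ℝ) < h := by exact_mod_cast hh
  set g := G.card with hgdef
  set N := ⌊t / a⌋₊ with hN_def
  have hNle : (N : ℝ) ≤ t / a := Nat.floor_le (by positivity)
  have hNgt : t / a < N + 1 := Nat.lt_floor_add_one _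
  have hN2 : 2 ≤ N := Nat.le_floor (by push_cast; rw [le_div_iff₀ ha]; linarith)
  have hN' : (2 : ℝ) ≤ N := by exact_mod_cast hN2
  have hN0 : (0 : ℝ) < N := by linarith
  set s := t / N with hs_def
  have hs : 0 < s := by positivity
  have has : a ≤ s := by
    rw [hs_def, le_div_iff₀ hN0]
    rw [le_div_iff₀ ha] at hNle
    linarith
  have hst : s ≤ t := div_le_self ht.le (by linarith)
  -- targets and ratios
  set S := (Finset.univ : Finset (Fin n)).erase e with hS
  have heS : e ∉ S := by simp [hS]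
  let L : Fin n → ℝ := fun k => if k ∈ G then s else A k
  have hLa : ∀ k, a ≤ L k := fun k => by
    simp only [L]; split_ifs
    · exact has
    · exact (hA k).1
  have hLt : ∀ k, L k ≤ 2 * t := fun k => by
    simp only [L]; split_ifs
    · linarith
    · exact (hA k).2
  let p : Fin n → ℕ := fun k => ⌊(h : ℝ) * L k / a⌋₊
  set P := ⌊(h : ℝ) * (2 * t) / a⌋₊ with hP
  have hp : ∀ k ∈ S, h ≤ p k ∧ p k ≤ P := fun k _ => ⟨Nat.le_floor (by
      rw [le_div_iff₀ ha]; exact mul_le_mul_of_nonneg_left (hLa k) hh'.le),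
    Nat.floor_le_floor (by gcongr; exact hLt k)⟩
  obtain ⟨T, hT, hTle, hF⟩ := fill_vstage hmv (e := e) ha (p := p) (P := P) (h := h) hh hU S heS hp
  have hprodA : 0 < ∏ k, A k := Finset.prod_pos fun k _ => lt_of_lt_of_le ha (hA k).1
  have hGS : G ⊆ S := fun k hk =>
    Finset.mem_erase.2 ⟨fun hke => heG (hke ▸ hk), Finset.mem_univ k⟩
  have hden : (∏ k ∈ S, L k) * (N : ℝ) ^ g * t = ∏ k, A k := by
    rw [← Finset.mul_prod_erase _ A (Finset.mem_univ e), ← hS, hAt e (Finset.mem_insert_self _ _),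
      mul_comm _ t]
    congr 1
    rw [← Finset.prod_sdiff hGS, ← Finset.prod_sdiff (f := A) hGS,
      Finset.prod_congr rfl fun k hk => show L k = A k by
        simp only [L]; rw [if_neg (Finset.mem_sdiff.1 hk).2],
      mul_assoc, hgdef, ← Finset.prod_const, ← Finset.prod_mul_distrib]
    refine congr_arg _ (Finset.prod_congr rfl fun k hk => ?_)
    simp only [L]
    rw [if_pos hk, hAt k (Finset.mem_insert_of_mem hk), hs_def, div_mul_cancel₀ _ hN0.ne']
  have hprodS : 0 < ∏ k ∈ S, L k := Finset.prod_pos fun k _ => lt_of_lt_of_le ha (hLa k)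
  have hprod : ∏ k ∈ S, ((h : ℝ) / p k) ≤
      (1 + 1 / (h : ℝ)) ^ n * (a ^ (n - 1) / ∏ k ∈ S, L k) := by
    have hone : (1 : ℝ) ≤ 1 + 1 / (h : ℝ) := le_add_of_nonneg_right (by positivity)
    have h1 : ∏ k ∈ S, ((h : ℝ) / p k) ≤ ∏ k ∈ S, ((1 + 1 / (h : ℝ)) * (a / L k)) := by
      refine Finset.prod_le_prod (fun k _ => by positivity) fun k hk => ?_
      have hpk : (0 : ℝ) < p k := by exact_mod_cast Nat.lt_of_lt_of_le hh (hp k hk).1
      have hlt : (h : ℝ) * L k / a < p k + 1 := Nat.lt_floor_add_one _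
      rw [div_lt_iff₀ ha] at hlt
      have hge : (h : ℝ) ≤ p k := by exact_mod_cast (hp k hk).1
      have htk : 0 < L k := lt_of_lt_of_le ha (hLa k)
      rw [show (1 + 1 / (h : ℝ)) * (a / L k) = (((h : ℝ) + 1) * a) / (h * L k) by field_simp,
        div_le_div_iff₀ hpk (by positivity)]
      have h5 := mul_le_mul_of_nonneg_left hlt.le hh'.le
      have h6 := mul_le_mul_of_nonneg_left hge ha.le
      linarith
    refine h1.trans ?_
    rw [Finset.prod_mul_distrib, Finset.prod_const, Finset.prod_div_distrib, Finset.prod_const]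
    have hScard : S.card = n - 1 := by
      rw [hS, Finset.card_erase_of_mem (Finset.mem_univ e)]; simp
    rw [hScard]
    exact mul_le_mul_of_nonneg_right (pow_le_pow_right₀ hone (Nat.sub_le _ _))
      (div_nonneg (pow_nonneg ha.le _) hprodS.le)
  -- the long axis fits
  have hlong : (T : ℝ) * a ≤ t * (N : ℝ) ^ g := by
    set X := (1 + 1 / (h : ℝ)) ^ n * U * a ^ n / ∏ k, A k with hX
    have hmain : (U : ℝ) * (∏ k ∈ S, ((h : ℝ) / p k)) * a ≤ X * (t * (N : ℝ) ^ g) := by
      refine (mul_le_mul_of_nonneg_right (mul_le_mul_of_nonneg_left hprod (Nat.cast_nonneg U)) ha.le).trans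
        (le_of_eq ?_)
      obtain ⟨m, rfl⟩ : ∃ m, n = m + 1 := ⟨n - 1, by have := e.2; omega⟩
      rw [hX, ← hden, Nat.add_sub_cancel]
      field_simp
      ring
    have herr : (P : ℝ) ^ 3 * a ≤ 256 * (h : ℝ) ^ 3 / 2 ^ g * (t * (N : ℝ) ^ g) := by
      have hP' : (P : ℝ) ≤ h * (2 * t) / a := Nat.floor_le (by positivity)
      obtain ⟨i, hi⟩ : ∃ i, g = i + 2 := ⟨g - 2, by omega⟩
      have h4 : (t / a) ^ 2 ≤ 4 * (N : ℝ) ^ 2 := by
        rw [show 4 * (N : ℝ) ^ 2 = (2 * (N : ℝ)) ^ 2 by ring]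
        exact pow_le_pow_left₀ (by positivity) (by linarith) 2
      have h5 : (2 : ℝ) ^ i ≤ (N : ℝ) ^ i := pow_le_pow_left₀ (by norm_num) hN' i
      calc (P : ℝ) ^ 3 * a ≤ (h * (2 * t) / a) ^ 3 * a := by gcongr
        _ = 8 * (h : ℝ) ^ 3 * t * (t / a) ^ 2 := by field_simp; ring
        _ ≤ 8 * (h : ℝ) ^ 3 * t * (4 * (N : ℝ) ^ 2) := by gcongr
        _ ≤ 64 * (h : ℝ) ^ 3 * t * (N : ℝ) ^ 2 * ((2 : ℝ) ^ i / (2 : ℝ) ^ i) := by
          rw [div_self (by positivity)]
          have : 0 ≤ (h : ℝ) ^ 3 * t * (N : ℝ) ^ 2 := by positivity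
          linarith
        _ ≤ 64 * (h : ℝ) ^ 3 * t * (N : ℝ) ^ 2 * ((N : ℝ) ^ i / (2 : ℝ) ^ i) := by gcongr
        _ = _ := by rw [hi]; field_simp; ring
    calc (T : ℝ) * a ≤ ((U : ℝ) * ∏ k ∈ S, ((h : ℝ) / p k) + (P : ℝ) ^ 3) * a := by gcongr
      _ ≤ (X + 256 * (h : ℝ) ^ 3 / 2 ^ g) * (t * (N : ℝ) ^ g) := by rw [add_mul, add_mul]; linarith
      _ ≤ 1 * (t * (N : ℝ) ^ g) := by gcongr
      _ = _ := one_mul _
  -- assemble
  have hL : ∀ k, k ≠ e → 0 < L k := fun k _ => lt_of_lt_of_le ha (hLa k)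
  have hx := fill_xstage hmv hs hN2 hL G heG (fun k hk => by
    simp only [L]; rw [if_pos hk]) (e := e) (g := g) le_rfl
  rw [show g + 1 - G.card = 1 by omega] at hx
  have h0 : vstage e a p h ∅ U = unitVec e a U := by funext k; simp [vstage, unitVec]
  rw [h0] at hF
  refine hF.trans ((Fill.of_le (vstage_pos ha hh S (fun k hk => (hp k hk).1) hT) fun k => ?_).trans
    (hx.trans (Fill.of_le (fun k => ?_) fun k => ?_)))
  · unfold vstage xstage
    simp only [Finset.notMem_empty, if_false]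
    by_cases hke : k = e
    · rw [if_pos hke, if_pos hke]
      refine hlong.trans (le_of_eq ?_)
      rw [hs_def]; push_cast; field_simp; ring
    · rw [if_neg hke, if_neg hke, if_pos (show k ∈ S by simp [hS, hke]), div_le_iff₀ hh']
      have := Nat.floor_le (show 0 ≤ (h : ℝ) * L k / a from
        div_nonneg (mul_nonneg hh'.le (ha.le.trans (hLa k))) ha.le)
      rw [le_div_iff₀ ha] at this
      linarith
  · unfold xstage
    split_ifs with h1 h2
    · positivity
    · positivity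
    · exact hL k h1
  · unfold xstage
    have hsN : s * N = t := by rw [hs_def]; field_simp
    by_cases hke : k = e
    · subst hke
      rw [if_pos rfl, hAt k (Finset.mem_insert_self _ _)]
      push_cast; linarith
    · rw [if_neg hke]
      by_cases hkG : k ∈ G
      · rw [if_pos hkG, hAt k (Finset.mem_insert_of_mem hkG)]
        exact hsN.le
      · rw [if_neg hkG]
        simp only [L]
        rw [if_neg hkG]

end Vale.Agent.P209.Asymp
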