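import Vale.Agent.P209.Asymp.DefsGen

/-!
P209, high dimensions: the core map. It shifts one action by a function of the other ones, using a
branch of the argument on the image of a disc that has been pushed off the origin.
-/

namespace Vale.Agent.P209.Asymp

open scoped ContDiff Topology
open Complex (I normSq)
open Filter

variable {n : ℕ}

/-- A pushed disc carries a smooth branch of the logarithm. -/
lemma exists_branch {f : ℂ → ℂ} (hf : ContDiff ℝ ∞ f) {L : ℝ} (hL : 0 < L)
    (h0 : ∀ z, ‖z‖ < L → f z ≠ 0) :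
    ∃ ℓ : ℂ → ℂ, ∀ z, ‖z‖ < L → ContDiffAt ℝ ∞ ℓ z ∧ Complex.exp (ℓ z) = f z := by
  have hball : ∀ z : ℂ, z ∈ Metric.ball (0 : ℂ) L ↔ ‖z‖ < L := fun z => mem_ball_zero_iff
  have := Convex.contractibleSpace (convex_ball (0 : ℂ) L) (Metric.nonempty_ball.2 hL)
  have hsc : IsSimplyConnected (Metric.ball (0 : ℂ) L) := SimplyConnectedSpace.ofContractible _
  obtain ⟨ℓ, hc, he⟩ := Complex.exists_continuousOn_eqOn_exp_comp hsc Metric.isOpen_ball
    hf.continuous.continuousOn (by rintro ⟨z, hz, h⟩; exact h0 z ((hball z).1 hz) h)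
  refine ⟨ℓ, fun z hz => ?_⟩
  have hU := Metric.isOpen_ball.mem_nhds ((hball z).2 hz)
  have hez : Complex.exp (ℓ z) = f z := he ((hball z).2 hz)
  refine ⟨?_, hez⟩
  have hd : Tendsto (fun x => (ℓ x - ℓ z).im) (𝓝 z) (𝓝 0) := by
    simpa [Function.comp_def] using
      ((Complex.continuous_im.tendsto _).comp ((hc.continuousAt hU).tendsto.sub_const (ℓ z)))
  have hev : ℓ =ᶠ[𝓝 z] fun x => Complex.log (f x / f z) + ℓ z := by
    filter_upwards [hU, hd.eventually_const_lt (show -Real.pi < 0 by linarith [Real.pi_pos]),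
      hd.eventually_le_const Real.pi_pos] with x hx h1 h2
    rw [← he hx, ← hez, Function.comp_apply, ← Complex.exp_sub, Complex.log_exp h1 h2, sub_add_cancel]
  refine ContDiffAt.congr_of_eventuallyEq ?_ hev
  refine ((Complex.contDiffAt_log ?_).restrict_scalars ℝ |>.comp z (hf.contDiffAt.div_const _)).add
    contDiffAt_const
  simp [h0 z hz]

/-- The area form of the derivative of an exponential. -/
lemma area_exp {G : Type*} [NormedAddCommGroup G] [NormedSpace ℝ G] {p : G → ℂ} {p' : G →L[ℝ] ℂ}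
    {x : G} (hp : HasFDerivAt p p' x) {P' : G →L[ℝ] ℂ}
    (hP : HasFDerivAt (fun y => Complex.exp (p y)) P' x) (u v : G) :
    area (P' u) (P' v) =
      Real.exp (2 * (p x).re) * ((p' u).re * (p' v).im - (p' u).im * (p' v).re) := by
  rw [hP.unique hp.cexp]
  simp only [smul_apply, smul_eq_mul, area_mul]
  rw [← Complex.sq_norm, Complex.norm_exp, two_mul (p x).re, Real.exp_add, pow_two]
  rfl

/-- The area form of the derivative of a rotation by a varying angle. -/
lemma area_rotate {G : Type*} [NormedAddCommGroup G] [NormedSpace ℝ G] {p : G → ℂ} {τ : G → ℝ}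
    {p' : G →L[ℝ] ℂ} {τ' : G →L[ℝ] ℝ} {x : G} (hp : HasFDerivAt p p' x) (hτ : HasFDerivAt τ τ' x)
    {P' : G →L[ℝ] ℂ} (hP : HasFDerivAt (fun y => p y * Complex.exp ((τ y : ℂ) * I)) P' x) (u v : G) :
    area (P' u) (P' v) = area (p' u) (p' v) +
      (((p x).re * (p' u).re + (p x).im * (p' u).im) * τ' v -
        ((p x).re * (p' v).re + (p x).im * (p' v).im) * τ' u) := by
  rw [hP.unique (hp.mul ((Complex.ofRealCLM.hasFDerivAt.comp x hτ).mul_const I).cexp)]
  have e : ∀ w : G, (p x • (Complex.exp ((τ x : ℂ) * I) • I • Complex.ofRealCLM.comp τ') +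
      Complex.exp ((τ x : ℂ) * I) • p') w =
      Complex.exp ((τ x : ℂ) * I) * (p' w + (τ' w : ℂ) * (I * p x)) := fun w => by
    simp; ring
  simp only [Function.comp_apply, Complex.ofRealCLM_apply]
  rw [e, e, area_mul, ← Complex.sq_norm, Complex.norm_exp_ofReal_mul_I]
  simp [area]; ring

/-- The new coordinate `a`. -/
noncomputable def coreA (g ℓ : ℂ → ℂ) (f : (Fin n → ℝ) → ℝ) (a : Fin n) (z : Fin n → ℂ) : ℂ :=
  Complex.exp (((Real.log ((Real.pi * normSq (g (z a)) + f (act z)) / Real.pi) / 2 : ℝ) : ℂ) +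
    (((ℓ (z a)).im : ℝ) : ℂ) * I)

/-- The other coordinates are turned by a multiple of the branch. -/
noncomputable def coreRot (ℓ : ℂ → ℂ) (f : (Fin n → ℝ) → ℝ) (a k : Fin n) (z : Fin n → ℂ) : ℂ :=
  z k * Complex.exp (((-(fderiv ℝ f (act z) (Pi.single k 1) * (ℓ (z a)).im) : ℝ) : ℂ) * I)

/-- The core map. -/
noncomputable def coreMap (g ℓ : ℂ → ℂ) (f : (Fin n → ℝ) → ℝ) (a : Fin n) (z : Fin n → ℂ) :
    Fin n → ℂ :=
  fun k => if k = a then coreA g ℓ f a z else coreRot ℓ f a k z

lemma apply_eq_sum_single (M : (Fin n → ℝ) →L[ℝ] ℝ) (x : Fin n → ℝ) :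
    M x = ∑ k, x k * M (Pi.single k 1) := by
  conv_lhs => rw [pi_eq_sum_univ' x]
  simp [map_sum]

theorem coreGenStmt : CoreGenStmt := by
  intro n a L δ f hL hδ hf hf0 hfa
  set L' := Real.sqrt (L / Real.pi)
  have hL' : 0 < L' := Real.sqrt_pos.2 (by positivity)
  obtain ⟨g, hg, hgb⟩ := exists_planar hL' (ε := δ / Real.pi) (by positivity)
  obtain ⟨ℓ, hℓ⟩ := exists_branch hg.smooth hL' fun z hz => (hgb z hz).1
  set U : Set (Fin n → ℂ) := {z | (∀ k, z k ≠ 0) ∧ act z a < L}
  have hUo : IsOpen U := by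
    simp only [U, Set.setOf_and, Set.setOf_forall]
    exact (isOpen_iInter_of_finite fun k => isOpen_ne_fun (continuous_apply k) continuous_const).inter
      (isOpen_lt (contDiff_act a).continuous continuous_const)
  have hza : ∀ z ∈ U, ‖z a‖ < L' := fun z hz => by
    refine Real.lt_sqrt_of_sq_lt ?_
    rw [lt_div_iff₀ Real.pi_pos, Complex.sq_norm, mul_comm]
    exact hz.2
  -- the derivative of `f` along `a` vanishes
  have hDa0 : ∀ P, fderiv ℝ f P (Pi.single a 1) = 0 := fun P => by
    have h1 : HasDerivAt (fun t => f (Function.update P a t)) (fderiv ℝ f P (Pi.single a 1)) (P a) :=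
      ((hf.differentiable (by simp) P).hasFDerivAt).comp_hasDerivAt_of_eq (P a)
        (hasDerivAt_update P a (P a)) (by simp)
    simp only [hfa] at h1
    exact h1.unique (hasDerivAt_const _ _)
  set φ := coreMap g ℓ f a
  have hpos : ∀ z ∈ U, ∀ k, 0 < act z k := fun z hz k => act_pos' (hz.1 k)
  have hA : ∀ z ∈ U, 0 < Real.pi * normSq (g (z a)) := fun z hz =>
    mul_pos Real.pi_pos (Complex.normSq_pos.2 (hgb _ (hza z hz)).1)
  have hQ : ∀ z ∈ U, 0 < Real.pi * normSq (g (z a)) + f (act z) := fun z hz =>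
    add_pos_of_pos_of_nonneg (hA z hz) (hf0 _ (hpos z hz))
  have φa : ∀ z, φ z a = coreA g ℓ f a z := fun z => by simp [φ, coreMap]
  have φk : ∀ z k, k ≠ a → φ z k = coreRot ℓ f a k z := fun z k h1 => by simp [φ, coreMap, h1]
  have act_a : ∀ z ∈ U, act (φ z) a = Real.pi * normSq (g (z a)) + f (act z) := fun z hz => by
    rw [act, φa, coreA, ← Complex.sq_norm, Complex.norm_exp, pow_two, ← Real.exp_add]
    simp only [Complex.add_re, Complex.ofReal_re, Complex.mul_re, Complex.I_re, Complex.ofReal_im,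
      Complex.I_im, mul_zero, zero_mul, sub_zero, add_zero, add_halves]
    rw [Real.exp_log (div_pos (hQ z hz) Real.pi_pos)]
    field_simp
  have act_o : ∀ z k, k ≠ a → act (φ z) k = act z k := fun z k hk => by
    rw [act, act, φk z k hk, coreRot, map_mul, ← Complex.sq_norm (Complex.exp _),
      Complex.norm_exp_ofReal_mul_I]
    simp
  have hf' : ContDiff ℝ ∞ (fderiv ℝ f) := hf.fderiv_right (by simp)
  have hP : ContDiff ℝ ∞ (fun y : Fin n → ℂ => act y) := contDiff_pi.2 contDiff_act
  have hsm : ∀ z ∈ U, ContDiffAt ℝ ∞ φ z := by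
    intro z hz
    have hg' : ContDiffAt ℝ ∞ (fun y : Fin n → ℂ => g (y a)) z :=
      hg.smooth.contDiffAt.comp z (contDiffAt_apply _ _ _ _)
    have hl : ContDiffAt ℝ ∞ (fun y : Fin n → ℂ => (ℓ (y a)).im) z :=
      Complex.imCLM.contDiff.contDiffAt.comp z
        ((hℓ _ (hza z hz)).1.comp z (contDiffAt_apply _ _ _ _))
    have hE : ContDiffAt ℝ ∞ (fun y : Fin n → ℂ => act y) z := hP.contDiffAt
    have hN : ContDiffAt ℝ ∞ (fun y : Fin n → ℂ => normSq (g (y a))) z := by
      simpa [Complex.sq_norm] using hg'.norm_sq ℝ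
    have hnA : ContDiffAt ℝ ∞ (coreA g ℓ f a) z :=
      ((Complex.ofRealCLM.contDiff.contDiffAt.comp z
        (((((contDiffAt_const.mul hN).add (hf.contDiffAt.comp z hE)).div_const _).log
          (div_pos (hQ z hz) Real.pi_pos).ne').div_const 2)).add
        ((Complex.ofRealCLM.contDiff.contDiffAt.comp z hl).mul contDiffAt_const)).cexp
    refine contDiffAt_pi.2 fun k => ?_
    by_cases h1 : k = a
    · subst h1; simpa only [φa] using hnA
    simpa [φk _ k h1, coreRot, Function.comp_def, Complex.ofRealCLM_apply, mul_assoc] using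
      (contDiffAt_apply ℝ ℂ k z).mul ((Complex.ofRealCLM.contDiff.contDiffAt.comp z
        ((((hf'.contDiffAt.comp z hE).clm_apply contDiffAt_const).mul hl).neg)).mul contDiffAt_const).cexp
  have hω : ∀ z ∈ U, ∀ u v, omega0 (fderiv ℝ φ z u) (fderiv ℝ φ z v) = omega0 u v := by
    intro z hz u v
    set D := fderiv ℝ φ z
    have hφ : HasFDerivAt φ D z := ((hsm z hz).differentiableAt (by simp)).hasFDerivAt
    have hk : ∀ k, HasFDerivAt (fun y => φ y k) ((ContinuousLinearMap.proj k).comp D) z :=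
      fun k => hasFDerivAt_pi'.1 hφ k
    have hpr : ∀ k, HasFDerivAt (fun y : Fin n → ℂ => y k)
        (ContinuousLinearMap.proj (R := ℝ) (φ := fun _ : Fin n => ℂ) k) z :=
      fun k => hasFDerivAt_apply (𝕜 := ℝ) (F' := fun _ : Fin n => ℂ) k z
    have hℓd := ((hℓ _ (hza z hz)).1.differentiableAt (by simp)).hasFDerivAt
    set ℓ' := fderiv ℝ ℓ (z a)
    have hψ : HasFDerivAt (fun y : Fin n → ℂ => (ℓ (y a)).im)
        (Complex.imCLM.comp (ℓ'.comp (ContinuousLinearMap.proj a))) z :=
      Complex.imCLM.hasFDerivAt.comp z (hℓd.comp z (hpr a))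
    set G := fderiv ℝ g (z a)
    have hG : HasFDerivAt g G (z a) := (hg.smooth.differentiable (by simp) _).hasFDerivAt
    have hev : (fun y => Complex.exp (ℓ y)) =ᶠ[𝓝 (z a)] g :=
      Filter.eventually_of_mem ((isOpen_lt continuous_norm continuous_const).mem_nhds (hza z hz))
        fun y hy => (hℓ y hy).2
    have key : area (u a) (v a) = normSq (g (z a)) *
        ((ℓ' (u a)).re * (ℓ' (v a)).im - (ℓ' (u a)).im * (ℓ' (v a)).re) := by
      rw [← hg.area_eq (z a) (u a) (v a), area_exp hℓd (hG.congr_of_eventuallyEq hev),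
        ← (hℓ _ (hza z hz)).2, ← Complex.sq_norm, Complex.norm_exp, pow_two, ← Real.exp_add, two_mul]
    have hN : HasFDerivAt (fun y : Fin n → ℂ => Real.pi * normSq (g (y a)))
        ((2 * Real.pi * normSq (g (z a))) •
          (Complex.reCLM.comp (ℓ'.comp (ContinuousLinearMap.proj a)))) z := by
      have h1 := (((Complex.reCLM.hasFDerivAt.comp z (hℓd.comp z (hpr a))).const_mul 2).exp).const_mul
        Real.pi
      have hev' : (fun y : Fin n → ℂ => Real.pi * normSq (g (y a))) =ᶠ[𝓝 z]
          fun y => Real.pi * Real.exp (2 * (ℓ (y a)).re) :=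
        Filter.eventually_of_mem (hUo.mem_nhds hz) fun y hy => by
          simp only
          rw [← (hℓ _ (hza y hy)).2, ← Complex.sq_norm, Complex.norm_exp, two_mul, Real.exp_add,
            pow_two]
      refine (h1.congr_of_eventuallyEq hev').congr_fderiv (ContinuousLinearMap.ext fun w => ?_)
      rw [← (hℓ _ (hza z hz)).2, ← Complex.sq_norm, Complex.norm_exp, pow_two, ← Real.exp_add,
        ← two_mul]
      simp
      ring
    -- the moments
    set P := act z
    set P' := fderiv ℝ (fun y : Fin n → ℂ => act y) z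
    have hE : HasFDerivAt (fun y : Fin n → ℂ => act y) P' z :=
      ((hP.differentiable (by simp)) z).hasFDerivAt
    have hE' : ∀ k w, P' w k = 2 * Real.pi * ((z k).re * (w k).re + (z k).im * (w k).im) := by
      intro k w
      obtain ⟨D', hD, hD'⟩ := hasFDerivAt_act z k
      rw [← hD' w, ← (hasFDerivAt_pi'.1 hE k).unique hD]
      rfl
    set f' := fderiv ℝ f P with hf'def
    set f'' := fderiv ℝ (fderiv ℝ f) P
    have hfd : HasFDerivAt f f' P := (hf.differentiable (by simp) _).hasFDerivAt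
    have hfd' : HasFDerivAt (fderiv ℝ f) f'' P := (hf'.differentiable (by simp) _).hasFDerivAt
    have hsymm : ∀ x y, f'' x y = f'' y x :=
      (hf.contDiffAt.isSymmSndFDerivAt (by simp only [minSmoothness_of_isRCLikeNormedField]; decide)).eq
    have ha2 : ∀ x, f'' x (Pi.single a 1) = 0 := fun x => by
      have h1 := hfd'.clm_apply (hasFDerivAt_const (Pi.single a (1 : ℝ)) P)
      simp only [hDa0] at h1
      have h2 := congr($(h1.unique (hasFDerivAt_const (0 : ℝ) P)) x)
      simpa using h2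
    have hre : HasFDerivAt (fun y : Fin n → ℂ =>
        ((Real.log ((Real.pi * normSq (g (y a)) + f (act y)) * Real.pi⁻¹) * 2⁻¹ : ℝ) : ℂ) +
          (((ℓ (y a)).im : ℝ) : ℂ) * I) _ z :=
      (Complex.ofRealCLM.hasFDerivAt.comp z ((((hN.add (hfd.comp z hE)).mul_const Real.pi⁻¹).log
          (mul_pos (hQ z hz) (inv_pos.2 Real.pi_pos)).ne').mul_const (2 : ℝ)⁻¹)).add
        ((Complex.ofRealCLM.hasFDerivAt.comp z hψ).mul_const I)
    have hDA := area_exp hre (P' := (ContinuousLinearMap.proj a).comp D)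
      ((hk a).congr_of_eventuallyEq (Eventually.of_forall fun y => (φa y).symm)) u v
    set ψ := (ℓ (z a)).im
    set ψu := (ℓ' (u a)).im
    set ψv := (ℓ' (v a)).im
    have hrot : ∀ k, k ≠ a → area (D u k) (D v k) = area (u k) (v k) -
        (2 * Real.pi)⁻¹ * (P' u k * (ψ * f'' (P' v) (Pi.single k 1) + f' (Pi.single k 1) * ψv) -
          P' v k * (ψ * f'' (P' u) (Pi.single k 1) + f' (Pi.single k 1) * ψu)) := by
      intro k hka
      have hτ : HasFDerivAt
          (fun y : Fin n → ℂ => -(fderiv ℝ f (act y) (Pi.single k 1) * (ℓ (y a)).im)) _ z :=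
        ((((hfd'.comp z hE).clm_apply (hasFDerivAt_const (Pi.single k (1 : ℝ)) z)).mul hψ)).neg
      have h := area_rotate (hpr k) hτ (P' := (ContinuousLinearMap.proj k).comp D)
        ((hk k).congr_of_eventuallyEq (Eventually.of_forall fun y => (φk y k hka).symm)) u v
      simp only [ContinuousLinearMap.coe_comp, Function.comp_apply, ContinuousLinearMap.proj_apply] at h
      rw [h]
      simp [hE', ψ, ψu, ψv, P, ← hf'def]
      field_simp
      ring
    have hsum : ∑ k ∈ Finset.univ.erase a,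
        (P' u k * (ψ * f'' (P' v) (Pi.single k 1) + f' (Pi.single k 1) * ψv) -
          P' v k * (ψ * f'' (P' u) (Pi.single k 1) + f' (Pi.single k 1) * ψu)) =
        f' (P' u) * ψv - f' (P' v) * ψu := by
      rw [Finset.sum_erase _ (by rw [ha2, ha2, hDa0]; ring),
        apply_eq_sum_single f' (P' u), apply_eq_sum_single f' (P' v)]
      have hs : ψ * f'' (P' v) (P' u) = ψ * f'' (P' u) (P' v) := by rw [hsymm]
      rw [apply_eq_sum_single (f'' (P' v)) (P' u), apply_eq_sum_single (f'' (P' u)) (P' v),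
        Finset.mul_sum, Finset.mul_sum] at hs
      simp only [Finset.sum_sub_distrib, mul_add, Finset.sum_add_distrib, Finset.sum_mul, ← mul_assoc,
        mul_comm _ ψ] at hs ⊢
      linarith
    change ∑ k, area (D u k) (D v k) = ∑ k, area (u k) (v k)
    rw [← Finset.add_sum_erase _ _ (Finset.mem_univ a),
      ← Finset.add_sum_erase _ (fun k => area (u k) (v k)) (Finset.mem_univ a),
      Finset.sum_congr rfl fun k hk => hrot k (Finset.ne_of_mem_erase hk), Finset.sum_sub_distrib,
      ← Finset.mul_sum, hsum,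
      show D u a = (ContinuousLinearMap.proj a).comp D u from rfl,
      show D v a = (ContinuousLinearMap.proj a).comp D v from rfl, hDA, key]
    have hq := hQ z hz
    set Q := Real.pi * normSq (g (z a)) + f P with hQdef
    simp only [Complex.add_re, Complex.ofReal_re, Complex.mul_re, Complex.I_re, Complex.ofReal_im,
      Complex.I_im, mul_zero, zero_mul, sub_zero, add_zero]
    rw [show 2 * (Real.log (Q * Real.pi⁻¹) * 2⁻¹) = Real.log (Q * Real.pi⁻¹) by ring,
      Real.exp_log (mul_pos hq (inv_pos.2 Real.pi_pos))]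
    simp [← hQdef, ψ, ψu, ψv, P]
    field_simp
    ring
  have hi : Set.InjOn φ U := by
    intro z hz y hy h
    have hPe : act z = Function.update (act y) a (act z a) := funext fun k => by
      by_cases hk : k = a
      · simp [hk]
      · rw [Function.update_of_ne hk, ← act_o z k hk, ← act_o y k hk, h]
    have hfe : f (act z) = f (act y) := by rw [hPe, hfa]
    have hN : normSq (g (z a)) = normSq (g (y a)) := by
      have := congr_arg (fun w => act w a) h
      simp only [act_a z hz, act_a y hy, hfe, add_left_inj] at this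
      exact mul_left_cancel₀ Real.pi_ne_zero this
    have h1 := congr_fun h a
    rw [φa, φa, coreA, coreA, hN, hfe, Complex.exp_add, Complex.exp_add,
      mul_right_inj' (Complex.exp_ne_zero _)] at h1
    have hza' : z a = y a := hg.inj (by
      have e1 : ∀ w, Complex.exp w = ((Real.exp w.re : ℝ) : ℂ) * Complex.exp ((w.im : ℂ) * I) :=
        fun w => by rw [Complex.ofReal_exp, ← Complex.exp_add, Complex.re_add_im]
      rw [← (hℓ _ (hza z hz)).2, ← (hℓ _ (hza y hy)).2, e1 (ℓ (z a)), e1 (ℓ (y a)), h1]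
      congr 2
      have e2 : ∀ w ∈ U, Real.exp (ℓ (w a)).re = ‖g (w a)‖ := fun w hw => by
        rw [← (hℓ _ (hza w hw)).2, Complex.norm_exp]
      rw [e2 z hz, e2 y hy, Complex.norm_def, Complex.norm_def, hN])
    have hact : act z = act y := by
      rw [hPe, show act z a = act y a by simp only [act, hza'], Function.update_eq_self]
    funext k
    by_cases h1 : k = a
    · rw [h1, hza']
    have := congr_fun h k
    rw [φk z k h1, φk y k h1, coreRot, coreRot, hza', hact, mul_left_inj' (Complex.exp_ne_zero _)] at this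
    exact this
  refine ⟨φ, ⟨hUo, fun z hz => (hsm z hz).contDiffWithinAt, hω,
    isOpenEmbedding_of_symp hUo (fun z hz => (hsm z hz).contDiffWithinAt) hω hi⟩, fun z hz hza' => ?_⟩
  have hzU : z ∈ U := ⟨hz, hza'⟩
  refine ⟨fun k => ?_, act_o z, ?_, ?_⟩
  · by_cases h1 : k = a
    · subst h1; rw [φa]; exact Complex.exp_ne_zero _
    rw [φk z k h1]; exact mul_ne_zero (hz k) (Complex.exp_ne_zero _)
  · rw [act_a z hzU]; linarith [hA z hzU]
  · rw [act_a z hzU]
    have h := mul_le_mul_of_nonneg_left (hgb _ (hza z hzU)).2 Real.pi_pos.le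
    rw [mul_add, mul_div_cancel₀ _ Real.pi_ne_zero, Complex.sq_norm, Complex.sq_norm] at h
    simp only [act] at h ⊢
    linarith

theorem coreStmt : CoreStmt := fun n a e hae L δ f hL hδ hf hf0 =>
  coreGenStmt n a L δ (fun P => f (P e)) hL hδ (hf.comp (contDiff_apply ℝ ℝ e)) (fun _ _ => hf0 _)
    fun P t => by simp [hae.symm]

end Vale.Agent.P209.Asymp
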