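import Vale.Agent.P209.Recursion

/-!
P209, high dimensions: torus domains over scaled simplices, and the statements of the modules.
-/

namespace Vale.Agent.P209.Asymp

open scoped ContDiff

variable {n : ℕ} {ι : Type*}

/-- The part of `(ℂ^*)^n` over `θ` times the open simplex with axis lengths `a`. -/
def torusDom (a : Fin n → ℝ) (θ : ℝ) : Set (Fin n → ℂ) :=
  {z | (∀ k, z k ≠ 0) ∧ ∑ k, act z k / a k < θ}

/-- Balls packed in a strictly smaller copy of the torus domain. -/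
def PacksIn (a : Fin n → ℝ) (r : ι → ℝ) : Prop :=
  ∃ θ, 0 < θ ∧ θ < 1 ∧ ∃ φ : ι → (Fin n → ℂ) → (Fin n → ℂ), ∃ W : ι → Set (Fin n → ℂ),
    (∀ i, closedCapBall n (r i) ⊆ W i ∧ IsSympEmbOn (W i) (φ i) ∧
      Set.MapsTo (φ i) (W i) (torusDom a θ)) ∧
    Pairwise fun i j => Disjoint (φ i '' W i) (φ j '' W j)

/-- Every smaller copy of the torus domain of `a` embeds in a smaller copy of that of `b`. -/
def Fill (a b : Fin n → ℝ) : Prop :=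
  ∀ θ, 0 < θ → θ < 1 → ∃ θ', 0 < θ' ∧ θ' < 1 ∧ ∃ φ : (Fin n → ℂ) → (Fin n → ℂ),
    IsSympEmbOn (torusDom a θ) φ ∧ Set.MapsTo φ (torusDom a θ) (torusDom b θ')

/-- The axis lengths `σ, …, σ, U σ`, the long one at `e`. -/
def unitVec (e : Fin n) (σ : ℝ) (U : ℕ) : Fin n → ℝ :=
  fun k => if k = e then (U : ℝ) * σ else σ

/-- The core map: shift `act a` by `f (act e)`. -/
def CoreStmt : Prop :=
  ∀ (n : ℕ) (a e : Fin n), a ≠ e → ∀ (L δ : ℝ) (f : ℝ → ℝ), 0 < L → 0 < δ → ContDiff ℝ ∞ f →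
    (∀ x, 0 ≤ f x) →
    ∃ φ : (Fin n → ℂ) → (Fin n → ℂ),
      IsSympEmbOn {z | (∀ k, z k ≠ 0) ∧ act z a < L} φ ∧
      ∀ z : Fin n → ℂ, (∀ k, z k ≠ 0) → act z a < L →
        (∀ k, φ z k ≠ 0) ∧ (∀ k, k ≠ a → act (φ z) k = act z k) ∧
        f (act z e) < act (φ z) a ∧ act (φ z) a ≤ act z a + δ + f (act z e)

/-- One exact move on a pair of axes. -/
def MoveStmt : Prop :=
  ∀ (n : ℕ) (a e : Fin n), a ≠ e → ∀ (s : ℝ) (u w : ℕ), 0 < s → 0 < w → w < u →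
    ∀ A : Fin n → ℝ, (∀ k, 0 < A k) → A a = s → A e = s * (u : ℝ) ^ 2 / ((u : ℝ) - w) →
      (∀ o, o ≠ a → o ≠ e → ∃ c : ℤ, (c : ℝ) * A o = (u : ℝ) * s) →
      Fill A (Function.update (Function.update A a (s * u / w)) e (s * u * w / ((u : ℝ) - w)))

/-- Single balls, and concatenation along the long axis. -/
def MergeStmt : Prop :=
  (∀ (n : ℕ) (e : Fin n) (σ r : ℝ), 0 < r → r < σ → PacksIn (unitVec e σ 1) fun _ : Unit => r) ∧
  ∀ (n : ℕ) (e : Fin n) (σ : ℝ) (ι κ : Type) (r : ι → ℝ) (r' : κ → ℝ) (U V : ℕ),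
    0 < σ → 1 ≤ U → 1 ≤ V → PacksIn (unitVec e σ U) r → PacksIn (unitVec e σ V) r' →
      PacksIn (unitVec e σ (U + V)) (Sum.elim r r')

/-- Pushing `K` units of size `s` to units of size `s p / q`; the last step into the ball. -/
def PushStmt : Prop :=
  (∀ (n : ℕ) (e : Fin n) (s : ℝ) (p q K : ℕ), 0 < s → 0 < q → q < p → 1 ≤ K →
    ∃ K' : ℕ, 1 ≤ K' ∧ (K' : ℝ) ≤ K * ((q : ℝ) / p) ^ n + (p : ℝ) ^ 3 + 2 ∧
      Fill (unitVec e s K) (unitVec e (s * p / q) K')) ∧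
  ∀ (n : ℕ) (e : Fin n) (s : ℝ), 0 < s → Fill (unitVec e s (2 ^ n)) fun _ => 2 * s

/-- Sufficiency in high dimensions: explicit form, and up to any volume factor above one. -/
def HighDimSufficiency : Prop :=
  (∀ n h : ℕ, 1 ≤ n → 1 ≤ h → ∀ (k : ℕ) (R : ℝ) (r : Fin k → ℝ), 0 < R →
      (∀ i, 0 < r i ∧ 2 * r i < R) →
      (1 + 1 / (h : ℝ)) ^ n * ∑ i, r i ^ n + 100 * (h : ℝ) ^ 4 * (R / 2) ^ n ≤ R ^ n →
      HasPacking n R r) ∧
  ∀ ε : ℝ, 0 < ε → ∃ N : ℕ, ∀ n, N ≤ n → ∀ (k : ℕ) (R : ℝ) (r : Fin k → ℝ), 0 < R →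
      (∀ i, 0 < r i ∧ 2 * r i < R) → (1 + ε) * ∑ i, r i ^ n ≤ R ^ n → HasPacking n R r

lemma act_pos' {z : Fin n → ℂ} {k : Fin n} (h : z k ≠ 0) : 0 < act z k :=
  mul_pos Real.pi_pos (Complex.normSq_pos.2 h)

lemma torusDom_mono {a b : Fin n → ℝ} {θ θ' : ℝ} (ha : ∀ k, 0 < a k) (hab : ∀ k, a k ≤ b k)
    (hθ : θ ≤ θ') : torusDom a θ ⊆ torusDom b θ' := fun z hz =>
  ⟨hz.1, lt_of_le_of_lt (Finset.sum_le_sum fun k _ =>
    div_le_div_of_nonneg_left (act_pos' (hz.1 k)).le (ha k) (hab k)) (hz.2.trans_le hθ)⟩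

lemma Fill.trans {a b c : Fin n → ℝ} (h1 : Fill a b) (h2 : Fill b c) : Fill a c := by
  intro θ h0 hlt
  obtain ⟨θ', h0', hlt', φ, hφ, hm⟩ := h1 θ h0 hlt
  obtain ⟨θ'', h0'', hlt'', ψ, hψ, hm'⟩ := h2 θ' h0' hlt'
  refine ⟨θ'', h0'', hlt'', ψ ∘ φ, ?_, hm'.comp hm⟩
  have := isSympEmbOn_comp hφ hψ
  rwa [Set.inter_eq_left.2 hm.subset_preimage] at this

lemma Fill.of_le {a b : Fin n → ℝ} (ha : ∀ k, 0 < a k) (hab : ∀ k, a k ≤ b k) : Fill a b := by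
  intro θ h0 hlt
  have ho : IsOpen (torusDom a θ) := by
    simp only [torusDom, Set.setOf_and, Set.setOf_forall]
    exact (isOpen_iInter_of_finite fun k => isOpen_ne_fun (continuous_apply k) continuous_const).inter
      (isOpen_lt (continuous_finsetSum _ fun k _ => (contDiff_act k).continuous.div_const _)
        continuous_const)
  exact ⟨θ, h0, hlt, fun x => x, ⟨ho, contDiffOn_id, fun x _ u v => by simp,
    isOpenEmbedding_of_symp ho contDiffOn_id (fun x _ u v => by simp) (Set.injOn_id _)⟩,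
    fun x hx => torusDom_mono ha hab le_rfl hx⟩

lemma PacksIn.push {a b : Fin n → ℝ} {r : ι → ℝ} (h : PacksIn a r) (hf : Fill a b) : PacksIn b r := by
  obtain ⟨θ, h0, hlt, φ, W, hW, hd⟩ := h
  obtain ⟨θ', h0', hlt', ψ, hψ, hm⟩ := hf θ h0 hlt
  refine ⟨θ', h0', hlt', fun i => ψ ∘ φ i, W, fun i => ⟨(hW i).1, ?_, hm.comp (hW i).2.2⟩, ?_⟩
  · have := isSympEmbOn_comp (hW i).2.1 hψ
    rwa [Set.inter_eq_left.2 (hW i).2.2.subset_preimage] at this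
  · intro i j hij
    rw [Set.disjoint_left]
    rintro p ⟨x, hx, rfl⟩ ⟨y, hy, he⟩
    have h1 : (⟨φ j y, (hW j).2.2 hy⟩ : torusDom a θ) = ⟨φ i x, (hW i).2.2 hx⟩ :=
      hψ.2.2.2.injective he
    exact Set.disjoint_left.1 (hd hij) ⟨x, hx, rfl⟩ ⟨y, hy, congr_arg Subtype.val h1⟩

lemma PacksIn.reindex {κ : Type*} {a : Fin n → ℝ} {r : κ → ℝ} (e : ι ↪ κ) (h : PacksIn a r) :
    PacksIn a fun i => r (e i) := by
  obtain ⟨θ, h0, hlt, φ, W, hW, hd⟩ := h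
  exact ⟨θ, h0, hlt, fun i => φ (e i), fun i => W (e i), fun i => hW _,
    fun i j hij => hd (e.injective.ne hij)⟩

lemma PacksIn.toBall {R : ℝ} (hR : 0 < R) {r : ι → ℝ}
    (h : PacksIn (fun _ : Fin n => R) r) : Packs n R r := by
  obtain ⟨θ, h0, hlt, φ, W, hW, hd⟩ := h
  refine ⟨φ, fun i => ⟨W i, (hW i).1, (hW i).2.1⟩, fun i x hx => ?_,
    fun i j hij => (hd hij).mono (Set.image_mono (hW i).1) (Set.image_mono (hW j).1)⟩
  have hz := ((hW i).2.2 ((hW i).1 hx)).2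
  rw [← Finset.sum_div, div_lt_iff₀ hR] at hz
  show capacity _ < R
  rw [capacity_eq]
  nlinarith

end Vale.Agent.P209.Asymp
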