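import Vale.Agent.P209.Asymp.Defs

/-!
P209, high dimensions: moves with arbitrary spectator axes.
-/

namespace Vale.Agent.P209.Asymp

open scoped ContDiff

variable {n : ℕ}

/-- The general core map: shift `act a` by a smooth function of the other moments. -/
def CoreGenStmt : Prop :=
  ∀ (n : ℕ) (a : Fin n) (L δ : ℝ) (f : (Fin n → ℝ) → ℝ), 0 < L → 0 < δ → ContDiff ℝ ∞ f →
    (∀ P, (∀ k, 0 < P k) → 0 ≤ f P) → (∀ P t, f (Function.update P a t) = f P) →
    ∃ φ : (Fin n → ℂ) → (Fin n → ℂ),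
      IsSympEmbOn {z | (∀ k, z k ≠ 0) ∧ act z a < L} φ ∧
      ∀ z : Fin n → ℂ, (∀ k, z k ≠ 0) → act z a < L →
        (∀ k, φ z k ≠ 0) ∧ (∀ k, k ≠ a → act (φ z) k = act z k) ∧
        f (act z) < act (φ z) a ∧ act (φ z) a ≤ act z a + δ + f (act z)

/-- One exact move on a pair of axes, the other axes arbitrary. -/
def MoveGenStmt : Prop :=
  ∀ (n : ℕ) (a e : Fin n), a ≠ e → ∀ (s : ℝ) (u w : ℕ), 0 < s → 0 < w → w < u →
    ∀ A : Fin n → ℝ, (∀ k, 0 < A k) → A a = s → A e = s * (u : ℝ) ^ 2 / ((u : ℝ) - w) →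
      Fill A (Function.update (Function.update A a (s * u / w)) e (s * u * w / ((u : ℝ) - w)))

/-- Sufficiency up to the factor `1 + ε` in capacities, for every number of balls. -/
def CapacityAsymptotic : Prop :=
  ∀ ε : ℝ, 0 < ε → ε < 1 → ∃ N : ℕ, ∀ n, N ≤ n → ∀ (k : ℕ) (R : ℝ) (r : Fin k → ℝ), 0 < R →
    (∀ i, 0 < r i) → (∀ i j, i ≠ j → r i + r j < R) → ∑ i, r i ^ n ≤ ((1 - ε) * R) ^ n →
    HasPacking n R r

lemma MoveGenStmt.move (h : MoveGenStmt) : MoveStmt :=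
  fun n a e hae s u w hs hw hwu A hA hAa hAe _ => h n a e hae s u w hs hw hwu A hA hAa hAe

end Vale.Agent.P209.Asymp
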