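import Vale.Agent.P209.Asymp.Vol

/-!
An exponentially small defect: every piece of the slab that matters has many long axes.
-/

namespace Vale.Agent.P209.Asymp

open scoped Topology
open Filter Finset

variable {n : ℕ}

/-- Whether a piece has `g + 1` equal axes of length at least `2 a`. -/
def Usable (a b : ℝ) (g : ℕ) (j : Fin n) : Prop := (j : ℕ) + g + 2 ≤ n ∨ 2 * a ≤ b

/-- Units pushed into a usable piece. -/
lemma fill_usable (hbox : BoxFillStmt) {a b R : ℝ} (ha : 0 < a) (h2a : 2 * a ≤ R) (hab : a ≤ b)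
    (hbR : b ≤ R) (hsum : a + b = R) {h g : ℕ} (hh : 1 ≤ h) (hg : 2 ≤ g) (h2g : 2 * g + 4 ≤ n) (j : Fin n)
    (hu : Usable a b g j) :
    ∃ e : Fin n, ∀ U : ℕ, 1 ≤ U →
      (1 + 1 / (h : ℝ)) ^ n * U / (b ^ (j : ℕ) * R ^ (n - 1 - (j : ℕ)) / a ^ (n - 1))
        + 256 * (h : ℝ) ^ 3 / 2 ^ g ≤ 1 →
      Fill (unitVec e a U) (pieceVec j a b R) := by
  classical
  obtain ⟨e, G, t, hG, heG, ht, htR, hval⟩ : ∃ (e : Fin n) (G : Finset (Fin n)) (t : ℝ),
      G.card = g ∧ e ∉ G ∧ 2 * a ≤ t ∧ R ≤ 2 * t ∧ ∀ k ∈ insert e G, pieceVec j a b R k = t := by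
    by_cases h1 : (j : ℕ) + g + 2 ≤ n
    · let e : Fin n := ⟨n - 1, by lia⟩
      have hje : j < e := by rw [Fin.lt_def]; show (j : ℕ) < n - 1; lia
      obtain ⟨G, hG, hGc⟩ := Finset.exists_subset_card_eq (s := (Finset.Ioi j).erase e) (n := g)
        (by rw [Finset.card_erase_of_mem (Finset.mem_Ioi.2 hje), Fin.card_Ioi]; lia)
      refine ⟨e, G, R, hGc, fun h => Finset.notMem_erase _ _ (hG h), h2a, by linarith, fun k hk => ?_⟩
      have hjk : j < k := by
        rcases Finset.mem_insert.1 hk with rfl | hk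
        · exact hje
        · exact Finset.mem_Ioi.1 (Finset.mem_of_mem_erase (hG hk))
      rw [pieceVec, if_neg hjk.ne', if_neg hjk.asymm]
    · have hb2 : 2 * a ≤ b := hu.resolve_left h1
      let e : Fin n := ⟨0, by lia⟩
      have hej : e < j := by rw [Fin.lt_def]; show 0 < (j : ℕ); lia
      obtain ⟨G, hG, hGc⟩ := Finset.exists_subset_card_eq (s := (Finset.Iio j).erase e) (n := g)
        (by rw [Finset.card_erase_of_mem (Finset.mem_Iio.2 hej), Fin.card_Iio]; lia)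
      refine ⟨e, G, b, hGc, fun h => Finset.notMem_erase _ _ (hG h), hb2, by linarith, fun k hk => ?_⟩
      have hjk : k < j := by
        rcases Finset.mem_insert.1 hk with rfl | hk
        · exact hej
        · exact Finset.mem_Iio.1 (Finset.mem_of_mem_erase (hG hk))
      rw [pieceVec, if_neg hjk.ne, if_pos hjk]
  refine ⟨e, fun U hU hb' => hbox n e G _ a t h U ha ht hh (hG ▸ hg) heG (fun k => ?_) hval hU ?_⟩
  · unfold pieceVec; split_ifs <;> constructor <;> linarith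
  · have hprod : ∏ k, pieceVec j a b R k = a * (b ^ (j : ℕ) * R ^ (n - 1 - (j : ℕ))) := by
      rw [← Finset.mul_prod_erase _ _ (Finset.mem_univ j), pieceVec, if_pos rfl,
        ← Finset.prod_filter_mul_prod_filter_not _ (fun k => k < j)]
      congr 1
      have e1 : (univ.erase j).filter (fun k => k < j) = Finset.Iio j := by
        ext k; simp; exact fun h => h.ne
      have e2 : (univ.erase j).filter (fun k => ¬ k < j) = Finset.Ioi j := by
        ext k
        simp only [Finset.mem_filter, Finset.mem_erase, Finset.mem_univ, and_true, Finset.mem_Ioi, not_lt]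
        exact ⟨fun h => lt_of_le_of_ne h.2 (Ne.symm h.1), fun h => ⟨h.ne', h.le⟩⟩
      have p1 : ∀ k ∈ Finset.Iio j, pieceVec j a b R k = b := fun k hk => by
        rw [pieceVec, if_neg (Finset.mem_Iio.1 hk).ne, if_pos (Finset.mem_Iio.1 hk)]
      have p2 : ∀ k ∈ Finset.Ioi j, pieceVec j a b R k = R := fun k hk => by
        rw [pieceVec, if_neg (Finset.mem_Ioi.1 hk).ne', if_neg (Finset.mem_Ioi.1 hk).asymm]
      rw [e1, e2, Finset.prod_congr rfl p1, Finset.prod_congr rfl p2, Finset.prod_const,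
        Finset.prod_const, Fin.card_Iio, Fin.card_Ioi]
    have han : a ^ n = a * a ^ (n - 1) := by rw [← pow_succ']; congr 1; lia
    rw [hG, hprod, han, mul_div_assoc, mul_div_mul_left _ _ ha.ne']
    rw [div_div_eq_mul_div, mul_div_assoc] at hb'
    exact hb'

/-- The unusable pieces are negligible. -/
lemma usable_volume {a b R : ℝ} (ha : 0 < a) (hb : 0 ≤ b) (hbR : b ≤ R) (hab : a + b = R) (hn : 1 ≤ n)
    {g : ℕ} (hg : g + 2 ≤ n) {η : ℝ} (hη : (n : ℝ) * (2 / 3) ^ (n - 1 - g) ≤ η) [DecidablePred (Usable (n := n) a b g)] :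
    (1 - η) * ((R ^ n - b ^ n) / a ^ n) ≤ ∑ j : Fin n,
      if Usable a b g j then b ^ (j : ℕ) * R ^ (n - 1 - (j : ℕ)) / a ^ (n - 1) else 0 := by
  have hR : 0 ≤ R := hb.trans hbR
  have han : (0 : ℝ) < a ^ n := pow_pos ha n
  set V : Fin n → ℝ := fun j => b ^ (j : ℕ) * R ^ (n - 1 - (j : ℕ)) / a ^ (n - 1)
  have hV : ∀ j, 0 ≤ V j := fun j => by positivity
  have hall : (R ^ n - b ^ n) / a ^ n ≤ ∑ j, V j := by
    have := pieces_volume (m := n) ha hb hbR hab hn le_rfl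
    rw [div_self (by positivity), one_mul] at this
    rw [div_le_iff₀ han, mul_comm]
    exact this
  have hη0 : 0 ≤ η := le_trans (by positivity) hη
  have hbad : ∀ j, ¬ Usable a b g j → V j ≤ (2 / 3) ^ (n - 1 - g) * ∑ j, V j := by
    intro j hj
    obtain ⟨h1, h2⟩ := not_or.1 hj
    let z : Fin n := ⟨0, by lia⟩
    refine le_trans ?_ (mul_le_mul_of_nonneg_left
      (Finset.single_le_sum (fun i _ => hV i) (Finset.mem_univ z)) (by positivity))
    simp only [V, z, pow_zero, one_mul, Nat.sub_zero]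
    rw [← mul_div_assoc]
    refine div_le_div_of_nonneg_right ?_ (by positivity)
    rw [show n - 1 = (n - 1 - (j : ℕ)) + (j : ℕ) by lia, pow_add, Nat.add_sub_cancel]
    rw [show (2 / 3 : ℝ) ^ ((n - 1 - (j : ℕ)) + (j : ℕ) - g) * (R ^ (n - 1 - (j : ℕ)) * R ^ (j : ℕ))
      = (2 / 3 : ℝ) ^ ((n - 1 - (j : ℕ)) + (j : ℕ) - g) * R ^ (j : ℕ) * R ^ (n - 1 - (j : ℕ)) by ring]
    refine mul_le_mul_of_nonneg_right ?_ (by positivity)
    calc b ^ (j : ℕ) ≤ ((2 / 3) * R) ^ (j : ℕ) := pow_le_pow_left₀ hb (by linarith) _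
      _ = (2 / 3) ^ (j : ℕ) * R ^ (j : ℕ) := mul_pow _ _ _
      _ ≤ _ := mul_le_mul_of_nonneg_right
          (pow_le_pow_of_le_one (by norm_num) (by norm_num) (by lia)) (by positivity)
  have hsplit : ∑ j, V j ≤ (∑ j, if Usable a b g j then V j else 0)
      + n * ((2 / 3) ^ (n - 1 - g) * ∑ j, V j) := by
    calc ∑ j, V j ≤ ∑ j, ((if Usable a b g j then V j else 0) + (2 / 3) ^ (n - 1 - g) * ∑ j, V j) := by
          refine Finset.sum_le_sum fun j _ => ?_
          split_ifs with h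
          · have : 0 ≤ (2 / 3 : ℝ) ^ (n - 1 - g) * ∑ j, V j :=
              mul_nonneg (by positivity) (Finset.sum_nonneg fun i _ => hV i)
            linarith
          · linarith [hbad j h]
      _ = _ := by simp [Finset.sum_add_distrib]
  have hnn : 0 ≤ ∑ j, if Usable a b g j then V j else 0 :=
    Finset.sum_nonneg fun j _ => by split_ifs <;> [exact hV j; exact le_rfl]
  by_cases h1 : η ≤ 1
  · have := mul_le_mul_of_nonneg_left hall (sub_nonneg.2 h1)
    have := mul_le_mul_of_nonneg_right hη (Finset.sum_nonneg fun i (_ : i ∈ univ) => hV i)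
    linarith
  · have hD : 0 ≤ (R ^ n - b ^ n) / a ^ n :=
      div_nonneg (sub_nonneg.2 (pow_le_pow_left₀ hb hbR n)) han.le
    exact le_trans (mul_nonpos_of_nonpos_of_nonneg (by linarith) hD) hnn

/-- Packing beside a ball `q`, the parameters given. -/
lemma packing_beside_exp (hm : MergeStmt) (hp : PushStmt) (hpc : PieceStmt) (hbox : BoxFillStmt)
    {k : ℕ} {R a ε η E : ℝ} {r : Fin k → ℝ} (q : Fin k) (hr : ∀ i, 0 < r i) (ha0 : 0 < a)
    (h2a : 2 * a ≤ R) (hqa : r q + a < R) (hao : ∀ i, i ≠ q → r i < a) (hε : 0 < ε) (hε1 : ε ≤ 1)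
    (hη : η = ε / 32) (hE1 : 1 ≤ E) (hE2 : E ^ 2 ≤ 1 + ε / 4) {h g : ℕ} (hh : 1 ≤ h) (hg2 : 2 ≤ g)
    (h2g : 2 * g + 4 ≤ n) (hpow : (1 + 1 / (h : ℝ)) ^ n ≤ E)
    (hν : 100 * (h : ℝ) ^ 4 + 256 * (h : ℝ) ^ 3 ≤ η * 2 ^ g)
    (htail : (n : ℝ) * (2 / 3) ^ (n - 1 - g) ≤ η) (hcount : (n : ℝ) ≤ η * 2 ^ (n - 1))
    (haT : (1 + ε) * ∑ i ∈ univ.erase q, r i ^ n < R ^ n - (R - a) ^ n) : HasPacking n R r := by
  classical
  set b := R - a with hb
  set S := univ.erase q
  have hR : 0 < R := by linarith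
  have hab : a ≤ b := by linarith
  have hbR : b ≤ R := by linarith
  have hb0 : 0 < b := by linarith
  have hn1 : 1 ≤ n := by lia
  have hη0 : 0 < η := by rw [hη]; positivity
  have hE : E ≤ 2 := by nlinarith
  set G : ℝ := 2 ^ g
  have hG0 : 0 < G := by positivity
  set V : Fin n → ℝ := fun j => b ^ (j : ℕ) * R ^ (n - 1 - (j : ℕ)) / a ^ (n - 1)
  have hV0 : ∀ j, 0 ≤ V j := fun j => by positivity
  set κ := (1 - η) / E ^ 2
  have hκ0 : 0 ≤ κ := div_nonneg (by linarith) (by positivity)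
  set W : Fin n → ℝ := fun j => if Usable a b g j then V j else 0
  have hW0 : ∀ j, 0 ≤ W j := fun j => by simp only [W]; split_ifs <;> [exact hV0 j; exact le_rfl]
  have hVG : ∀ j, Usable a b g j → G ≤ V j := by
    intro j hj
    have hsplit : a ^ (n - 1) = a ^ (j : ℕ) * a ^ (n - 1 - (j : ℕ)) := by
      rw [← pow_add]; congr 1; lia
    simp only [V, G]
    rw [le_div_iff₀ (by positivity), hsplit]
    rcases hj with hj | hj
    · calc (2 : ℝ) ^ g * (a ^ (j : ℕ) * a ^ (n - 1 - (j : ℕ)))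
          ≤ 2 ^ (n - 1 - (j : ℕ)) * (b ^ (j : ℕ) * a ^ (n - 1 - (j : ℕ))) := by
            gcongr
            · norm_num
            · lia
        _ = b ^ (j : ℕ) * (2 * a) ^ (n - 1 - (j : ℕ)) := by ring
        _ ≤ _ := by gcongr
    · calc (2 : ℝ) ^ g * (a ^ (j : ℕ) * a ^ (n - 1 - (j : ℕ)))
          ≤ 2 ^ ((j : ℕ) + (n - 1 - (j : ℕ))) * (a ^ (j : ℕ) * a ^ (n - 1 - (j : ℕ))) := by
            gcongr
            · norm_num
            · lia
        _ = (2 * a) ^ (j : ℕ) * (2 * a) ^ (n - 1 - (j : ℕ)) := by rw [pow_add]; ring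
        _ ≤ _ := by gcongr
  have hT0 : 0 ≤ ∑ i ∈ S, r i ^ n := Finset.sum_nonneg fun i _ => pow_nonneg (hr i).le n
  have hbudget : ∑ i ∈ S, (r i / a) ^ n + n ≤ ∑ j, κ * W j := by
    rw [← Finset.mul_sum]
    have han : (0 : ℝ) < a ^ n := pow_pos ha0 n
    refine budget_le (D := (R ^ n - b ^ n) / a ^ n) (q := 1 - η) (η := η) (by linarith) hε
      (Finset.sum_nonneg fun i _ => pow_nonneg (div_nonneg (hr i).le ha0.le) n) ?_ ?_ le_rfl ?_ ?_
      (usable_volume ha0 hb0.le hbR (by linarith) hn1 (by lia) htail)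
    · have hκ' : (1 - η) / (1 + ε / 4) ≤ κ :=
        div_le_div_of_nonneg_left (by linarith) (by positivity) hE2
      rw [div_le_iff₀ (by linarith)] at hκ'
      have h4 : 1 + ε / 4 ≤ (1 + ε) * (1 - η) * (1 - η - η * (1 + ε / 4)) := by
        have h5 : 1 - 4 * η ≤ (1 - η) * (1 - η - η * (1 + ε / 4)) := by
          nlinarith [mul_nonneg hη0.le (show 0 ≤ 1 - ε by linarith), mul_nonneg hη0.le hη0.le,
            mul_nonneg (mul_nonneg hη0.le hη0.le) hε.le]
        refine le_trans ?_ (le_trans (mul_le_mul_of_nonneg_left h5 (show 0 ≤ 1 + ε by linarith))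
          (le_of_eq (mul_assoc _ _ _).symm))
        rw [hη]
        nlinarith
      have h6 : (1 + ε) * (1 - η) * (1 - η - η * (1 + ε / 4))
          ≤ (1 + ε) * (1 - η) * ((κ - η) * (1 + ε / 4)) :=
        mul_le_mul_of_nonneg_left (by linarith) (mul_nonneg (by linarith) (by linarith))
      nlinarith
    · let z : Fin n := ⟨0, by lia⟩
      refine hcount.trans (mul_le_mul_of_nonneg_left ?_ hη0.le)
      refine le_trans ?_ (Finset.single_le_sum (fun i _ => hW0 i) (Finset.mem_univ z))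
      simp only [W]
      rw [if_pos (show Usable a b g z from Or.inl (by show 0 + g + 2 ≤ n; lia))]
      simp only [V, z, pow_zero, one_mul, Nat.sub_zero]
      rw [le_div_iff₀ (by positivity), ← mul_pow]
      exact pow_le_pow_left₀ (by positivity) h2a _
    · exact div_nonneg (sub_nonneg.2 (pow_le_pow_left₀ hb0.le hbR n)) han.le
    · rw [le_div_iff₀ han, mul_assoc, Finset.sum_mul]
      refine le_trans (le_of_eq ?_) haT.le
      congr 1
      exact Finset.sum_congr rfl fun i _ => by rw [div_pow, div_mul_cancel₀ _ han.ne']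
  obtain ⟨f, hf⟩ := exists_partition (by lia : 0 < n) (fun i => (r i / a) ^ n) (fun j => κ * W j)
    (fun j => mul_nonneg hκ0 (hW0 j)) S (fun i hi => ⟨pow_nonneg (div_nonneg (hr i).le ha0.le) n,
      pow_le_one₀ (div_nonneg (hr i).le ha0.le)
        ((div_le_one ha0).2 (hao i (Finset.ne_of_mem_erase hi)).le)⟩) hbudget
  obtain ⟨J, hJ⟩ : ∃ J : ℕ, ∀ i, a ≤ 2 ^ J * r i := by
    choose J hJ using fun i => (pow_unbounded_of_one_lt (a / r i) (by norm_num : (1 : ℝ) < 2))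
    refine ⟨∑ i, J i, fun i => ?_⟩
    rw [← div_le_iff₀ (hr i)]
    exact (hJ i).le.trans (pow_le_pow_right₀ (by norm_num)
      (Finset.single_le_sum (fun j _ => Nat.zero_le _) (Finset.mem_univ i)))
  refine hpc n k R a b r q (fun i => f i.1) ha0 hb0 (by linarith) (hr q) (by linarith) fun j => ?_
  set Sj := S.filter fun i => f i = j
  by_cases hj : Usable a b g j
  swap
  · have hz := hf j
    rw [show W j = 0 from if_neg hj, mul_zero] at hz
    have : IsEmpty {i : {i // i ≠ q} // f i.1 = j} := ⟨fun i => by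
      have hmem : i.1.1 ∈ Sj :=
        Finset.mem_filter.2 ⟨Finset.mem_erase.2 ⟨i.1.2, Finset.mem_univ _⟩, i.2⟩
      have := (Finset.single_le_sum (f := fun i => (r i / a) ^ n)
        (fun l _ => pow_nonneg (div_nonneg (hr l).le ha0.le) n) hmem).trans hz
      exact absurd this (not_le.2 (pow_pos (div_pos (hr _) ha0) n))⟩
    exact packsIn_of_isEmpty _ _
  obtain ⟨e, hfillU⟩ := fill_usable hbox ha0 h2a hab hbR (by linarith) hh hg2 h2g j hj
  obtain ⟨U, hU, hUb⟩ := units_below hm hp hn1 e r hh J a ha0 Sj fun i hi =>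
    ⟨hJ i, hao i (Finset.ne_of_mem_erase (Finset.mem_filter.1 hi).1)⟩
  have hfill : Fill (unitVec e a U) (pieceVec j a b R) := by
    refine hfillU U hU.1 ?_
    show (1 + 1 / (h : ℝ)) ^ n * U / V j + _ ≤ _
    have hVj : 0 < V j := lt_of_lt_of_le hG0 (hVG j hj)
    have h1 : (1 + 1 / (h : ℝ)) ^ n * U ≤ E * (E * (κ * V j) + 50 * (h : ℝ) ^ 4) := by
      refine mul_le_mul hpow (hUb.trans ?_) (Nat.cast_nonneg U) (by positivity)
      have hfj := hf j
      rw [show W j = V j from if_pos hj] at hfj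
      exact add_le_add (mul_le_mul hpow hfj
        (Finset.sum_nonneg fun i _ => pow_nonneg (div_nonneg (hr i).le ha0.le) n) (by positivity)) le_rfl
    have h2 : (1 + 1 / (h : ℝ)) ^ n * U / V j ≤ 1 - η + 100 * (h : ℝ) ^ 4 / G := by
      refine (div_le_div_of_nonneg_right h1 hVj.le).trans ?_
      rw [show E * (E * (κ * V j) + 50 * (h : ℝ) ^ 4) / V j = (E ^ 2 * κ) + 50 * E * (h : ℝ) ^ 4 / V j by
        field_simp]
      refine add_le_add (le_of_eq ?_) ?_
      · simp only [κ]; field_simp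
      · refine div_le_div₀ (by positivity) ?_ hG0 (hVG j hj)
        have : (0 : ℝ) ≤ (h : ℝ) ^ 4 := by positivity
        nlinarith
    have h3 : (100 * (h : ℝ) ^ 4 + 256 * (h : ℝ) ^ 3) / G ≤ η := (div_le_iff₀ hG0).2 hν
    rw [add_div] at h3
    linarith
  exact (hU.2.push hfill).reindex
    (ι := {i : {i // i ≠ q} // f i.1 = j})
    ⟨fun i => (⟨i.1.1, Finset.mem_filter.2 ⟨Finset.mem_erase.2 ⟨i.1.2, Finset.mem_univ _⟩, i.2⟩⟩ : Sj),
      fun i i' hii => Subtype.ext (Subtype.ext (congr_arg (fun z : Sj => (z : Fin k)) hii))⟩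

/-- Large dimension beats the polynomial losses. -/
lemma parameters_768 {n : ℕ} (hn : 768 ≤ n) : 356 * (n : ℝ) ^ 4 * 2 ^ 36 ≤ 2 ^ (n / 8) := by
  have key : ∀ m : ℕ, 96 ≤ m → 356 * 9 ^ 4 * 2 ^ 36 * m ^ 4 ≤ 2 ^ m := by
    intro m hm
    induction m, hm using Nat.le_induction with
    | base => norm_num
    | succ m hm ih =>
      have h4 : (m + 1) ^ 4 ≤ 2 * m ^ 4 := by
        nlinarith [Nat.mul_le_mul_left (m ^ 3) hm, Nat.mul_le_mul_left (m ^ 2) hm, Nat.mul_le_mul_left m hm]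
      calc 356 * 9 ^ 4 * 2 ^ 36 * (m + 1) ^ 4 ≤ 356 * 9 ^ 4 * 2 ^ 36 * (2 * m ^ 4) :=
            Nat.mul_le_mul_left _ h4
        _ = (356 * 9 ^ 4 * 2 ^ 36 * m ^ 4) * 2 := by ring
        _ ≤ 2 ^ m * 2 := Nat.mul_le_mul_right _ ih
        _ = 2 ^ (m + 1) := (pow_succ _ _).symm
  have h1 : ((356 * 9 ^ 4 * 2 ^ 36 * (n / 8) ^ 4 : ℕ) : ℝ) ≤ ((2 ^ (n / 8) : ℕ) : ℝ) :=
    Nat.cast_le.2 (key _ (by lia))
  have h2 : (n : ℝ) ≤ 9 * ((n / 8 : ℕ) : ℝ) := by exact_mod_cast (show n ≤ 9 * (n / 8) by lia)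
  push_cast at h1
  calc 356 * (n : ℝ) ^ 4 * 2 ^ 36 ≤ 356 * (9 * ((n / 8 : ℕ) : ℝ)) ^ 4 * 2 ^ 36 := by gcongr
    _ = 356 * 9 ^ 4 * 2 ^ 36 * ((n / 8 : ℕ) : ℝ) ^ 4 := by ring
    _ ≤ _ := le_of_eq_of_le (by norm_num) h1

theorem volumeExponential (hm : MergeStmt) (hmv : MoveGenStmt) (hpc : PieceStmt) (hbox : BoxFillStmt) :
    VolumeExponential := by
  classical
  have hp : PushStmt := pushStmt_of_move hmv.move
  intro n hn k R r hR hr hpair p hsum
  have hn32 : 32 ≤ n := by lia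
  have hpar := parameters_768 hn
  set M := n / 16
  set δ := 1 / (2 : ℝ) ^ M with hδ
  have hδ0 : 0 < δ := by positivity
  have hδ1 : δ ≤ 1 := by rw [hδ, div_le_one (by positivity)]; exact one_le_pow₀ (by norm_num)
  set η := δ / 2 / 32 with hη
  have hη0 : 0 < η := by positivity
  have hη2 : η * 2 ^ (M + 6) = 1 := by
    simp only [hη, hδ]; rw [pow_add]; field_simp; norm_num
  set h := n * 2 ^ (M + 6)
  have hh : 1 ≤ h := Nat.one_le_iff_ne_zero.2 (Nat.mul_ne_zero (by lia) (by positivity))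
  have hh' : (h : ℝ) = n * 2 ^ (M + 6) := by simp [h]
  have hn1 : (1 : ℝ) ≤ n := by exact_mod_cast (show 1 ≤ n by lia)
  set E := 1 + 2 * η
  have hE1 : 1 ≤ E := by linarith
  have hpow : (1 + 1 / (h : ℝ)) ^ n ≤ E := by
    calc (1 + 1 / (h : ℝ)) ^ n ≤ Real.exp (1 / (h : ℝ)) ^ n := by
          gcongr; linarith [Real.add_one_le_exp (1 / (h : ℝ))]
      _ = Real.exp η := by
          rw [← Real.exp_nat_mul]; congr 1; rw [hh']
          have : η = 1 / 2 ^ (M + 6) := by rw [eq_div_iff (by positivity)]; exact hη2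
          rw [this]; field_simp
      _ ≤ E := by
          have hη1 : |η| ≤ 1 := by rw [abs_of_pos hη0]; rw [hη]; linarith
          have h1 := Real.abs_exp_sub_one_le hη1
          rw [abs_of_pos hη0] at h1
          linarith [le_abs_self (Real.exp η - 1)]
  set g := n / 2 - 2
  have h24 : 100 * (h : ℝ) ^ 4 + 256 * (h : ℝ) ^ 3 ≤ η * 2 ^ g := by
    have hh1 : (1 : ℝ) ≤ h := by exact_mod_cast hh
    have h3 : (h : ℝ) ^ 3 ≤ (h : ℝ) ^ 4 := pow_le_pow_right₀ hh1 (by norm_num)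
    have h5 : 356 * (h : ℝ) ^ 4 * 2 ^ (M + 6) ≤ 2 ^ g := by
      calc 356 * (h : ℝ) ^ 4 * 2 ^ (M + 6)
          = 356 * (n : ℝ) ^ 4 * 2 ^ 30 * 2 ^ (5 * M) := by rw [hh']; ring
        _ ≤ 2 ^ (n / 8) / 2 ^ 6 * 2 ^ (5 * M) := by
            gcongr
            rw [le_div_iff₀ (by positivity)]
            linarith
        _ ≤ 2 ^ g := by
            rw [div_mul_eq_mul_div, div_le_iff₀ (by positivity), ← pow_add, ← pow_add]
            exact pow_le_pow_right₀ (by norm_num) (by lia)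
    have h6 : 356 * (h : ℝ) ^ 4 * 2 ^ (M + 6) * η ≤ 2 ^ g * η := mul_le_mul_of_nonneg_right h5 hη0.le
    rw [mul_assoc _ ((2 : ℝ) ^ (M + 6)), mul_comm ((2 : ℝ) ^ (M + 6)), hη2, mul_one] at h6
    linarith
  have hpar' : (n : ℝ) * 2 ^ (M + 6) ≤ 2 ^ (n / 4) := by
    calc (n : ℝ) * 2 ^ (M + 6) = (n * 2 ^ 6) * 2 ^ M := by ring
      _ ≤ 2 ^ (n / 8) * 2 ^ M := by
          gcongr
          have : (n : ℝ) ≤ (n : ℝ) ^ 4 := le_self_pow₀ hn1 (by norm_num)
          nlinarith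
      _ ≤ _ := by rw [← pow_add]; exact pow_le_pow_right₀ (by norm_num) (by lia)
  have htail : (n : ℝ) * (2 / 3) ^ (n - 1 - g) ≤ η := by
    have h1 : (2 / 3 : ℝ) ^ (n - 1 - g) ≤ (1 / 2) ^ (n / 4) :=
      calc (2 / 3 : ℝ) ^ (n - 1 - g) ≤ (2 / 3) ^ (2 * (n / 4)) :=
            pow_le_pow_of_le_one (by norm_num) (by norm_num) (by lia)
        _ ≤ _ := by rw [pow_mul]; exact pow_le_pow_left₀ (by positivity) (by norm_num) _
    refine (mul_le_mul_of_nonneg_left h1 (by positivity)).trans ?_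
    have h7 := mul_le_mul_of_nonneg_right hpar' hη0.le
    rw [mul_assoc, mul_comm ((2 : ℝ) ^ (M + 6)), hη2, mul_one] at h7
    rw [div_pow, one_pow, mul_one_div, div_le_iff₀ (by positivity)]
    linarith
  have hcount : (n : ℝ) ≤ η * 2 ^ (n - 1) := by
    have h7 := mul_le_mul_of_nonneg_right hpar' hη0.le
    rw [mul_assoc, mul_comm ((2 : ℝ) ^ (M + 6)), hη2, mul_one] at h7
    have : (2 : ℝ) ^ (n / 4) * η ≤ 2 ^ (n - 1) * η :=
      mul_le_mul_of_nonneg_right (pow_le_pow_right₀ (by norm_num) (by lia)) hη0.le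
    linarith
  have hr0 : ∀ i, 0 ≤ r i ^ n := fun i => pow_nonneg (hr i).1.le n
  by_cases hall : ∀ i, 2 * r i < R
  · refine (highDimSufficiency hm hp).1 n h (by lia) hh k R r hR (fun i => ⟨(hr i).1, hall i⟩) ?_
    rw [← Finset.add_sum_erase _ _ (Finset.mem_univ p)]
    set T := ∑ i ∈ univ.erase p, r i ^ n
    have hT : 0 ≤ T := Finset.sum_nonneg fun i _ => hr0 i
    have hp0 := hr0 p
    have hp2 : r p ^ n ≤ (R / 2) ^ n := pow_le_pow_left₀ (hr p).1.le (by linarith [hall p]) n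
    have hEd : E ≤ 1 + δ / 2 := by simp only [E, hη]; linarith
    have h1 : (1 + 1 / (h : ℝ)) ^ n * (r p ^ n + T) ≤ 2 * (R / 2) ^ n + (1 - δ / 4) * R ^ n := by
      refine (mul_le_mul_of_nonneg_right (hpow.trans hEd) (by positivity)).trans ?_
      have h4 := mul_le_mul_of_nonneg_left hsum (show 0 ≤ 1 - δ / 4 by linarith)
      nlinarith [mul_nonneg hT (mul_nonneg hδ0.le (sub_nonneg.2 hδ1)),
        mul_nonneg hp0 (show 0 ≤ 1 - δ / 4 by linarith), pow_nonneg (half_pos hR).le n]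
    have h2 : (2 + 100 * (h : ℝ) ^ 4) * (R / 2) ^ n ≤ δ / 4 * R ^ n := by
      have hg : (2 : ℝ) ^ g ≤ 2 ^ n := pow_le_pow_right₀ (by norm_num) (by lia)
      have hh3 : (1 : ℝ) ≤ (h : ℝ) ^ 3 := one_le_pow₀ (by exact_mod_cast hh)
      have h8 := mul_le_mul_of_nonneg_left hg hη0.le
      have h9 : η * (2 : ℝ) ^ n ≤ δ / 4 * 2 ^ n :=
        mul_le_mul_of_nonneg_right (by rw [hη]; linarith) (by positivity)
      rw [div_pow, ← mul_div_assoc, div_le_iff₀ (by positivity), mul_right_comm]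
      exact mul_le_mul_of_nonneg_right (by linarith) (pow_nonneg hR.le n)
    linarith
  push Not at hall
  obtain ⟨q, hq⟩ := hall
  have hsum' : r q ^ n + (1 + δ) * ∑ i ∈ univ.erase q, r i ^ n ≤ R ^ n := by
    by_cases hpq : q = p
    · subst hpq; exact hsum
    have hle : r p ^ n ≤ r q ^ n :=
      pow_le_pow_left₀ (hr p).1.le (by linarith [hpair p q (Ne.symm hpq)]) n
    have e1 := Finset.add_sum_erase univ (fun i => r i ^ n) (Finset.mem_univ p)
    have e2 := Finset.add_sum_erase univ (fun i => r i ^ n) (Finset.mem_univ q)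
    nlinarith
  set S := univ.erase q
  set T := ∑ i ∈ S, r i ^ n
  have hT0 : 0 ≤ T := Finset.sum_nonneg fun i _ => hr0 i
  have hstrict : (1 + δ / 2) * T < R ^ n - r q ^ n := by
    have hq' : r q ^ n < R ^ n := pow_lt_pow_left₀ (hr q).2 (hr q).1.le (by lia)
    rcases hT0.lt_or_eq with hT | hT
    · nlinarith
    · rw [← hT]; linarith
  obtain ⟨a, ⟨has, hao⟩, ha0, haT⟩ : ∃ a, (a < R - r q ∧ ∀ i ∈ S, r i < a) ∧ 0 < a ∧
      (1 + δ / 2) * T < R ^ n - (R - a) ^ n := by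
    have h1 : ∀ᶠ a in 𝓝[<] (R - r q), (1 + δ / 2) * T < R ^ n - (R - a) ^ n := by
      refine Tendsto.eventually_const_lt (v := R ^ n - r q ^ n) hstrict ?_
      have : Tendsto (fun a : ℝ => R ^ n - (R - a) ^ n) (𝓝 (R - r q))
          (𝓝 (R ^ n - (R - (R - r q)) ^ n)) := (by fun_prop : Continuous _).tendsto _
      rw [sub_sub_cancel] at this
      exact this.mono_left nhdsWithin_le_nhds
    have h2 : ∀ᶠ a in 𝓝[<] (R - r q), ∀ i ∈ S, r i < a :=
      (Finset.eventually_all S).2 fun i hi => (eventually_gt_nhds (by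
        linarith [hpair i q (Finset.ne_of_mem_erase hi)])).filter_mono nhdsWithin_le_nhds
    have h3 : ∀ᶠ a in 𝓝[<] (R - r q), 0 < a :=
      (eventually_gt_nhds (sub_pos.2 (hr q).2)).filter_mono nhdsWithin_le_nhds
    obtain ⟨a, ⟨⟨e1, e2⟩, e3⟩, e4⟩ :=
      (((h1.and h2).and h3).and (self_mem_nhdsWithin (s := Set.Iio (R - r q)))).exists
    exact ⟨a, ⟨e4, e2⟩, e3, e1⟩
  exact packing_beside_exp hm hp hpc hbox (η := η) (E := E) q (fun i => (hr i).1) ha0
    (by linarith) (by linarith) (fun i hi => hao i (Finset.mem_erase.2 ⟨hi, Finset.mem_univ _⟩))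
    (by linarith) (by linarith) hη hE1
    (by simp only [E, hη]; nlinarith) hh (by lia) (by lia) hpow h24 htail hcount haT

end Vale.Agent.P209.Asymp
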