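import Vale.Agent.P209.Asymp.Row

/-!
Single balls, and concatenation of two blocks of units along the long axis.
-/

namespace Vale.Agent.P209.Asymp

open scoped ContDiff

variable {n : ℕ}

lemma unitVec_pos {e : Fin n} {σ : ℝ} (hσ : 0 < σ) {U : ℕ} (hU : 1 ≤ U) (k : Fin n) :
    0 < unitVec e σ U k := by
  unfold unitVec
  split_ifs
  · have : (0 : ℝ) < U := Nat.cast_pos.2 hU
    positivity
  · exact hσ

/-- Membership in the torus domain of `σ, …, σ, U σ`. -/
lemma mem_unit_iff {e : Fin n} {σ : ℝ} (hσ : 0 < σ) {U : ℕ} (hU : 1 ≤ U) {θ : ℝ} {z : Fin n → ℂ} :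
    z ∈ torusDom (unitVec e σ U) θ ↔ (∀ k, z k ≠ 0) ∧
      (U : ℝ) * (∑ k ∈ Finset.univ.erase e, act z k) + act z e < (U : ℝ) * σ * θ := by
  have hU' : (0 : ℝ) < U := Nat.cast_pos.2 hU
  have h : ∑ k, act z k / unitVec e σ U k
      = ((U : ℝ) * (∑ k ∈ Finset.univ.erase e, act z k) + act z e) / ((U : ℝ) * σ) := by
    rw [← Finset.add_sum_erase _ _ (Finset.mem_univ e),
      Finset.sum_congr rfl fun k hk => show act z k / unitVec e σ U k = act z k / σ by
        rw [unitVec, if_neg (Finset.ne_of_mem_erase hk)],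
      ← Finset.sum_div, unitVec, if_pos rfl]
    field_simp
    ring
  show (_ ∧ _) ↔ _
  rw [h, div_lt_iff₀ (by positivity)]
  constructor <;> rintro ⟨h1, h2⟩ <;> exact ⟨h1, by linarith⟩

lemma isSympEmbOn_mono {U V : Set (Fin n → ℂ)} {φ : (Fin n → ℂ) → (Fin n → ℂ)}
    (h : IsSympEmbOn U φ) (hV : IsOpen V) (hsub : V ⊆ U) : IsSympEmbOn V φ := by
  obtain ⟨-, hs, hω, he⟩ := h
  refine ⟨hV, hs.mono hsub, fun x hx => hω x (hsub hx),
    isOpenEmbedding_of_symp hV (hs.mono hsub) (fun x hx => hω x (hsub hx)) fun x hx y hy hxy => ?_⟩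
  exact congr_arg Subtype.val (he.injective (a₁ := ⟨x, hsub hx⟩) (a₂ := ⟨y, hsub hy⟩) hxy)

theorem mergeStmt : MergeStmt := by
  constructor
  · intro n e σ r hr hrσ
    have hn : 0 < n := Fin.pos_iff_nonempty.2 ⟨e⟩
    have hσ : 0 < σ := hr.trans hrσ
    obtain ⟨U, ψ, hU, hsub, hs, hi, hω, hψ⟩ :=
      exists_ball_map (r := r) (δ := (σ - r) / 2) hn hr.le (by linarith)
    refine ⟨(r + σ) / (2 * σ), by positivity, by rw [div_lt_one (by positivity)]; linarith,
      fun _ => ψ, fun _ => U, fun _ => ⟨hsub, ?_, fun x hx => ?_⟩,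
      fun i j hij => absurd (Subsingleton.elim i j) hij⟩
    · exact ⟨hU, hs.contDiffOn, fun x _ => hω x,
        isOpenEmbedding_of_symp hU hs.contDiffOn (fun x _ => hω x) hi.injOn⟩
    · obtain ⟨h0, hlt⟩ := hψ x hx
      refine (mem_unit_iff hσ le_rfl).2 ⟨h0, ?_⟩
      rw [← Finset.add_sum_erase _ _ (Finset.mem_univ e)] at hlt
      push_cast
      have : 1 * σ * ((r + σ) / (2 * σ)) = r + (σ - r) / 2 := by field_simp; ring
      linarith
  · intro n e σ ι κ r r' U V hσ hU hV h1 h2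
    obtain ⟨θ₁, t1, t1', φ, W, hW, hd⟩ := h1
    obtain ⟨θ₂, t2, t2', φ', W', hW', hd'⟩ := h2
    set θ := max θ₁ θ₂
    have hθ : θ < 1 := max_lt t1' t2'
    let ρ : Fin n → ℤ := fun k => if k = e then 0 else -(U : ℤ)
    have hsum : ∀ z : Fin n → ℂ, ∑ l, (ρ l : ℝ) * act z l
        = -((U : ℝ) * ∑ k ∈ Finset.univ.erase e, act z k) := by
      intro z
      rw [← Finset.add_sum_erase _ _ (Finset.mem_univ e), Finset.mul_sum, ← Finset.sum_neg_distrib]
      simp only [ρ, if_true, Int.cast_zero, zero_mul, zero_add]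
      exact Finset.sum_congr rfl fun k hk => by simp [Finset.ne_of_mem_erase hk]
    have hU' : (0 : ℝ) < U := Nat.cast_pos.2 hU
    have hV' : (0 : ℝ) < V := Nat.cast_pos.2 hV
    -- the shift of the second block
    have hin : ∀ z ∈ torusDom (unitVec e σ V) θ,
        0 < (U : ℝ) * σ * θ - (U : ℝ) * ∑ k ∈ Finset.univ.erase e, act z k := by
      intro z hz
      obtain ⟨h0, hlt⟩ := (mem_unit_iff hσ hV).1 hz
      have := act_pos' (h0 e)
      have h3 : ∑ k ∈ Finset.univ.erase e, act z k < σ * θ := by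
        by_contra hcon
        push Not at hcon
        nlinarith [mul_le_mul_of_nonneg_left hcon hV'.le]
      nlinarith
    obtain ⟨T, hT, hT'⟩ := exists_rowMap e (r := ρ) (by simp [ρ]) ((U : ℝ) * σ * θ)
      (isOpen_torusDom (unitVec e σ V) θ) fun z hz => by
        refine ⟨hz.1, ?_⟩
        rw [hsum]
        have := act_pos' (hz.1 e)
        linarith [hin z hz]
    have hUV : 1 ≤ U + V := by lia
    have hout : ∀ z ∈ torusDom (unitVec e σ V) θ, T z ∈ torusDom (unitVec e σ (U + V)) θ ∧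
        (U : ℝ) * σ * θ ≤ (U : ℝ) * (∑ k ∈ Finset.univ.erase e, act (T z) k) + act (T z) e := by
      intro z hz
      obtain ⟨hne, ha⟩ := hT' z hz
      obtain ⟨h0, hlt⟩ := (mem_unit_iff hσ hV).1 hz
      have hs : ∑ k ∈ Finset.univ.erase e, act (T z) k = ∑ k ∈ Finset.univ.erase e, act z k :=
        Finset.sum_congr rfl fun k hk => by simp [ha, Finset.ne_of_mem_erase hk]
      have he : act (T z) e = act z e + (-((U : ℝ) * ∑ k ∈ Finset.univ.erase e, act z k) + U * σ * θ) := by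
        rw [ha, if_pos rfl, hsum]
      refine ⟨(mem_unit_iff hσ hUV).2 ⟨hne, ?_⟩, ?_⟩
      · rw [hs, he]; push_cast; linarith
      · rw [hs, he]; linarith [act_pos' (h0 e)]
    have hsubU : torusDom (unitVec e σ U) θ₁ ⊆ torusDom (unitVec e σ (U + V)) θ := by
      refine torusDom_mono (unitVec_pos hσ hU) (fun k => ?_) (le_max_left _ _)
      unfold unitVec
      split_ifs
      · push_cast; nlinarith
      · exact le_rfl
    have hlow : ∀ z ∈ torusDom (unitVec e σ U) θ₁,
        (U : ℝ) * (∑ k ∈ Finset.univ.erase e, act z k) + act z e < (U : ℝ) * σ * θ := fun z hz =>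
      ((mem_unit_iff hσ hU).1 (torusDom_mono (unitVec_pos hσ hU) (fun k => le_rfl) (le_max_left _ _) hz)).2
    have hV2 : ∀ j, Set.MapsTo (φ' j) (W' j) (torusDom (unitVec e σ V) θ) := fun j x hx =>
      torusDom_mono (unitVec_pos hσ hV) (fun k => le_rfl) (le_max_right _ _) ((hW' j).2.2 hx)
    refine ⟨θ, t1.trans_le (le_max_left _ _), hθ, Sum.elim φ (fun j => T ∘ φ' j), Sum.elim W W', ?_, ?_⟩
    · rintro (i | j)
      · exact ⟨(hW i).1, (hW i).2.1, fun x hx => hsubU ((hW i).2.2 hx)⟩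
      · refine ⟨(hW' j).1, ?_, fun x hx => (hout _ (hV2 j hx)).1⟩
        have := isSympEmbOn_comp (hW' j).2.1 hT
        rwa [Set.inter_eq_left.2 (hV2 j).subset_preimage] at this
    · have cross : ∀ i j, Disjoint (φ i '' W i) ((T ∘ φ' j) '' W' j) := by
        intro i j
        rw [Set.disjoint_left]
        rintro p ⟨x, hx, rfl⟩ ⟨y, hy, he⟩
        have a1 := hlow _ ((hW i).2.2 hx)
        have a2 := (hout _ (hV2 j hy)).2
        simp only [Function.comp_apply] at he
        rw [he] at a2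
        linarith
      rintro (i | j) (i' | j') hij
      · exact hd fun h => hij (congr_arg Sum.inl h)
      · exact cross i j'
      · exact (cross i' j).symm
      · show Disjoint ((T ∘ φ' j) '' W' j) ((T ∘ φ' j') '' W' j')
        rw [Set.disjoint_left]
        rintro p ⟨x, hx, rfl⟩ ⟨y, hy, he⟩
        have h : (⟨φ' j' y, hV2 j' hy⟩ : torusDom (unitVec e σ V) θ) = ⟨φ' j x, hV2 j hx⟩ :=
          hT.2.2.2.injective he
        exact Set.disjoint_left.1 (hd' fun h' => hij (congr_arg Sum.inr h')) ⟨x, hx, rfl⟩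
          ⟨y, hy, congr_arg Subtype.val h⟩

end Vale.Agent.P209.Asymp
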