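import Vale.Agent.P209.Asymp.Row
import Vale.Agent.P209.Asymp.DefsGen

/-!
The exact move `E(s, s u^2/(u-w)) → E(s u/w, s u w/(u-w))` on two axes.
-/

namespace Vale.Agent.P209.Asymp

open scoped ContDiff

variable {n : ℕ}

/-- A smooth nonnegative majorant of `max 0 (-x/w)`. -/
noncomputable def kink (w d x : ℝ) : ℝ := (Real.sqrt (x ^ 2 + d ^ 2) - x) / (2 * w)

lemma contDiff_kink {w d : ℝ} (hd : 0 < d) : ContDiff ℝ ∞ (kink w d) := by
  refine ((ContDiff.sqrt ((contDiff_id.pow 2).add contDiff_const) fun x => ?_).sub contDiff_id).div_const _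
  positivity

lemma kink_nonneg {w : ℝ} (hw : 0 < w) (d x : ℝ) : 0 ≤ kink w d x := by
  refine div_nonneg ?_ (by linarith)
  have : x ≤ Real.sqrt (x ^ 2 + d ^ 2) := Real.le_sqrt_of_sq_le (by nlinarith [sq_nonneg d])
  linarith

lemma neg_le_mul_kink {w : ℝ} (hw : 0 < w) (d x : ℝ) : -x ≤ w * kink w d x := by
  have : -x ≤ Real.sqrt (x ^ 2 + d ^ 2) := Real.le_sqrt_of_sq_le (by nlinarith [sq_nonneg d])
  rw [kink]
  field_simp
  linarith

lemma kink_le {w d : ℝ} (hw : 0 < w) (hd : 0 < d) (x : ℝ) :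
    kink w d x ≤ (|x| - x) / (2 * w) + d / (2 * w) := by
  rw [← add_div, kink]
  refine div_le_div_of_nonneg_right ?_ (by linarith)
  have : Real.sqrt (x ^ 2 + d ^ 2) ≤ |x| + d := by
    rw [Real.sqrt_le_left (by positivity)]
    nlinarith [sq_abs x, abs_nonneg x]
  linarith

lemma isSympEmbOn_mono' {U V : Set (Fin n → ℂ)} {φ : (Fin n → ℂ) → (Fin n → ℂ)}
    (h : IsSympEmbOn U φ) (hV : IsOpen V) (hsub : V ⊆ U) : IsSympEmbOn V φ := by
  obtain ⟨-, hs, hω, he⟩ := h
  refine ⟨hV, hs.mono hsub, fun x hx => hω x (hsub hx),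
    isOpenEmbedding_of_symp hV (hs.mono hsub) (fun x hx => hω x (hsub hx)) fun x hx y hy hxy => ?_⟩
  exact congr_arg Subtype.val (he.injective (a₁ := ⟨x, hsub hx⟩) (a₂ := ⟨y, hsub hy⟩) hxy)

/-- The inequality of the move: the target simplex absorbs the shifted source simplex. -/
lemma move_ineq {η μ J So s u w θ : ℝ} (hs : 0 < s) (hw : 0 < w) (hwu : w < u) (hμ : 0 < μ)
    (hμeq : μ = J + u * s * (θ - So) - u * η)
    (hsrc : η / s + μ / (s * u ^ 2 / (u - w)) + So < θ) :
    η / s + (|J| - J) / (2 * w) / s + J / (s * u * w / (u - w)) + So < θ := by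
  have hu : 0 < u := hw.trans hwu
  have hd : 0 < u - w := sub_pos.2 hwu
  rcases le_total 0 J with hJ | hJ
  · rw [abs_of_nonneg hJ, sub_self, zero_div, zero_div, add_zero]
    have key : (w / u) * (η / s + J / (s * u * w / (u - w)) + So)
        = (η / s + μ / (s * u ^ 2 / (u - w)) + So) - ((u - w) / u) * θ := by
      rw [hμeq]; field_simp; ring
    have h2 : (w / u) * (η / s + J / (s * u * w / (u - w)) + So) < (w / u) * θ := by
      rw [key]
      have : (w / u) * θ = θ - ((u - w) / u) * θ := by field_simp; ring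
      linarith
    exact lt_of_mul_lt_mul_left h2 (by positivity)
  · rw [abs_of_nonpos hJ]
    have key : η / s + (-J - J) / (2 * w) / s + J / (s * u * w / (u - w)) + So = θ - μ / (u * s) := by
      rw [hμeq]; field_simp; ring
    rw [key]
    have : 0 < μ / (u * s) := by positivity
    linarith

theorem moveGenStmt_of_core (hcore : CoreGenStmt) : MoveGenStmt := by
  classical
  intro n a e hae s u w hs hw hwu A hA hAa hAe θ hθ0 hθ1
  have hw' : (0 : ℝ) < w := Nat.cast_pos.2 hw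
  have hwu' : (w : ℝ) < u := Nat.cast_lt.2 hwu
  have hu' : (0 : ℝ) < u := hw'.trans hwu'
  have hd' : (0 : ℝ) < (u : ℝ) - w := sub_pos.2 hwu'
  have hgap : 0 < 1 - θ := sub_pos.2 hθ1
  have hb : 0 < A e := hA e
  set others := (Finset.univ.erase a).erase e with hoth
  have hmem : ∀ {o}, o ∈ others → o ≠ a ∧ o ≠ e := fun {o} ho => by
    simp [others] at ho; exact ⟨ho.2, ho.1⟩
  -- first shift: the long moment absorbs the spectators
  set G : (Fin n → ℝ) → ℝ := fun P => (u : ℝ) * s * ∑ o ∈ others, P o / A o with hG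
  set δe := (1 - θ) * A e / 4
  have hδe : 0 < δe := by positivity
  set θ₁ := θ + (1 - θ) / 4
  have hθ₁ : 0 < θ₁ := by positivity
  have hθ₁' : θ₁ < 1 := by simp only [θ₁]; linarith
  obtain ⟨φ₀, hφ₀, h₀⟩ := hcore n e (A e) δe G hb hδe
    (contDiff_const.mul (ContDiff.sum fun o _ => (contDiff_apply ℝ ℝ o).div_const _))
    (fun P hP => mul_nonneg (by positivity)
      (Finset.sum_nonneg fun o _ => (div_pos (hP o) (hA o)).le))
    (fun P t => by
      simp only [hG]
      congr 1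
      exact Finset.sum_congr rfl fun o ho => by rw [Function.update_of_ne (hmem ho).2])
  -- second: add `u` times the short moment to the long one
  let r : Fin n → ℤ := fun o => if o = a then (u : ℤ) else 0
  have hre : r e = 0 := by simp [r, hae.symm]
  have hsum1 : ∀ z : Fin n → ℂ, ∑ l, (r l : ℝ) * act z l = (u : ℝ) * act z a := fun z => by
    simp [r, apply_ite (Int.cast : ℤ → ℝ), ite_mul]
  obtain ⟨φ₁, hφ₁, h₁⟩ := exists_rowMap e hre 0 isOpen_nonzero fun z hz => by
    refine ⟨hz, ?_⟩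
    rw [hsum1]
    have := act_pos' (hz e); have := act_pos' (hz a)
    positivity
  -- the kink
  set δ := (1 - θ) * s / 16
  set d := (1 - θ) * s * w / 8
  have hδ : 0 < δ := by positivity
  have hd : 0 < d := by positivity
  set f : (Fin n → ℝ) → ℝ := fun P => kink w d (P e - u * s * θ₁) with hf
  obtain ⟨φ₂, hφ₂, h₂⟩ := hcore n a s δ f hs hδ
    ((contDiff_kink hd).comp ((contDiff_apply ℝ ℝ e).sub contDiff_const))
    (fun P _ => kink_nonneg hw' _ _)
    (fun P t => by simp only [hf, Function.update_of_ne hae.symm])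
  -- the second monomial map
  let r' : Fin n → ℤ := fun o => if o = a then (w : ℤ) else 0
  have hr' : r' e = 0 := by simp [r', hae.symm]
  have hsum3 : ∀ z : Fin n → ℂ, ∑ l, (r' l : ℝ) * act z l = (w : ℝ) * act z a := fun z => by
    simp [r', apply_ite (Int.cast : ℤ → ℝ), ite_mul]
  set S₃ : Set (Fin n → ℂ) :=
    {z | (∀ k, z k ≠ 0) ∧ 0 < act z e + ((w : ℝ) * act z a + -((u : ℝ) * s * θ₁))}
  have hS₃ : IsOpen S₃ := by
    simp only [S₃, Set.ofPred_and]
    exact isOpen_nonzero.inter (isOpen_lt continuous_const ((contDiff_act e).continuous.add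
      ((continuous_const.mul (contDiff_act a).continuous).add continuous_const)))
  obtain ⟨φ₃, hφ₃, h₃⟩ := exists_rowMap e hr' (-((u : ℝ) * s * θ₁)) hS₃ fun z hz => by
    rw [hsum3]; exact hz
  -- images
  have key : ∀ z ∈ torusDom A θ, act z e < A e ∧ (∀ k, φ₀ z k ≠ 0) ∧
      (∀ k, φ₁ (φ₀ z) k ≠ 0) ∧ act (φ₁ (φ₀ z)) a < s ∧ φ₂ (φ₁ (φ₀ z)) ∈ S₃ ∧
      ∑ k, act (φ₃ (φ₂ (φ₁ (φ₀ z)))) k /
        Function.update (Function.update A a (s * u / w)) e (s * u * w / ((u : ℝ) - w)) k < (1 + θ) / 2 := by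
    intro z hz
    have hη0 := act_pos' (hz.1 a)
    have hμ0 := act_pos' (hz.1 e)
    set So := ∑ o ∈ others, act z o / A o with hSo'
    have hSo : 0 ≤ So := Finset.sum_nonneg fun o _ => (div_pos (act_pos' (hz.1 o)) (hA o)).le
    have hsrc : act z a / s + act z e / A e + So < θ := by
      have := hz.2
      rwa [sum_split_two hae, hAa] at this
    have hηlt : act z a < s := by
      have h1 : act z a / s < 1 := by
        have : 0 < act z e / A e := by positivity
        linarith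
      rwa [div_lt_one hs] at h1
    have hμlt : act z e < A e := by
      have h1 : act z e / A e < 1 := by
        have : 0 < act z a / s := by positivity
        linarith
      rwa [div_lt_one hb] at h1
    obtain ⟨n0, a0, lo0, hi0⟩ := h₀ z hz.1 hμlt
    have hGz : G (act z) = (u : ℝ) * s * So := rfl
    rw [hGz] at lo0 hi0
    obtain ⟨n1, a1⟩ := h₁ (φ₀ z) n0
    have haη : act (φ₁ (φ₀ z)) a = act z a := by rw [a1, if_neg hae, add_zero, a0 a hae]
    obtain ⟨n2, a2, lo, hi⟩ := h₂ (φ₁ (φ₀ z)) n1 (by rw [haη]; exact hηlt)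
    set μ := act (φ₀ z) e - (u : ℝ) * s * So with hμ
    set J := act (φ₀ z) e + (u : ℝ) * act z a - u * s * θ₁ with hJ
    have hP : act (φ₁ (φ₀ z)) e = J + u * s * θ₁ := by
      rw [a1, if_pos rfl, hsum1, a0 a hae, hJ]; ring
    have hPe : act (φ₂ (φ₁ (φ₀ z))) e = J + u * s * θ₁ := by rw [a2 e hae.symm, hP]
    have hfz : f (act (φ₁ (φ₀ z))) = kink w d J := by simp [hf, hP]
    rw [hfz] at lo hi
    rw [haη] at hi
    have hS : φ₂ (φ₁ (φ₀ z)) ∈ S₃ := by
      refine ⟨n2, ?_⟩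
      rw [hPe]
      have h1 := neg_le_mul_kink hw' d J
      have h2 := mul_lt_mul_of_pos_left lo hw'
      linarith
    refine ⟨hμlt, n0, n1, haη ▸ hηlt, hS, ?_⟩
    obtain ⟨n3, a3⟩ := h₃ _ hS
    rw [sum_split_two hae]
    have hrest : ∑ k ∈ others, act (φ₃ (φ₂ (φ₁ (φ₀ z)))) k /
        Function.update (Function.update A a (s * u / w)) e (s * u * w / ((u : ℝ) - w)) k = So := by
      refine Finset.sum_congr rfl fun o ho => ?_
      obtain ⟨o1, o2⟩ := hmem ho
      rw [a3, if_neg o2, add_zero, a2 o o1, a1, if_neg o2, add_zero, a0 o o2, Function.update_of_ne o2,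
        Function.update_of_ne o1]
    rw [← hoth, hrest, Function.update_of_ne hae, Function.update_self, Function.update_self, a3 a,
      if_neg hae, a3 e, if_pos rfl, hsum3, hPe]
    have hsrc' : act z a / s + μ / (s * (u : ℝ) ^ 2 / ((u : ℝ) - w)) + So < θ₁ := by
      rw [← hAe]
      have : μ / A e ≤ act z e / A e + δe / A e := by
        rw [← add_div]
        exact div_le_div_of_nonneg_right (by linarith) hb.le
      have h4 : δe / A e = (1 - θ) / 4 := by simp only [δe]; field_simp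
      simp only [θ₁]
      linarith
    have hin := move_ineq (η := act z a) (μ := μ) (J := J) (So := So) (θ := θ₁) hs hw' hwu'
      (by linarith) (by rw [hμ, hJ]; ring) hsrc'
    have hk := kink_le hw' hd J
    have e1 : (act (φ₂ (φ₁ (φ₀ z))) a + 0) / (s * u / w) + (J + u * s * θ₁ +
        ((w : ℝ) * act (φ₂ (φ₁ (φ₀ z))) a + -((u : ℝ) * s * θ₁))) / (s * u * w / ((u : ℝ) - w))
        = act (φ₂ (φ₁ (φ₀ z))) a / s + J / (s * u * w / ((u : ℝ) - w)) := by
      field_simp; ring
    rw [e1]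
    have e2 : act (φ₂ (φ₁ (φ₀ z))) a / s
        ≤ act z a / s + (|J| - J) / (2 * w) / s + (1 - θ) / 8 := by
      have h1 : act (φ₂ (φ₁ (φ₀ z))) a / s
          ≤ (act z a + δ + ((|J| - J) / (2 * w) + d / (2 * w))) / s :=
        div_le_div_of_nonneg_right (by linarith) hs.le
      refine h1.trans (le_of_eq ?_)
      simp only [δ, d]
      field_simp
      ring
    simp only [θ₁] at hin
    linarith
  refine ⟨(1 + θ) / 2, by linarith, by linarith, φ₃ ∘ φ₂ ∘ φ₁ ∘ φ₀, ?_, fun z hz => ?_⟩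
  · have h0 := isSympEmbOn_mono' hφ₀ (isOpen_torusDom A θ)
      (fun z hz => ⟨hz.1, (key z hz).1⟩)
    have h01 := isSympEmbOn_comp h0 hφ₁
    have hsub0 : torusDom A θ ⊆ φ₀ ⁻¹' {z | ∀ k, z k ≠ 0} := fun z hz => (key z hz).2.1
    rw [Set.inter_eq_left.2 hsub0] at h01
    have h012 := isSympEmbOn_comp h01 hφ₂
    have hsub1 : torusDom A θ ⊆ φ₁ ∘ φ₀ ⁻¹' {z | (∀ k, z k ≠ 0) ∧ act z a < s} :=
      fun z hz => ⟨(key z hz).2.2.1, (key z hz).2.2.2.1⟩
    rw [Set.inter_eq_left.2 hsub1] at h012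
    have h0123 := isSympEmbOn_comp h012 hφ₃
    have hsub2 : torusDom A θ ⊆ φ₂ ∘ φ₁ ∘ φ₀ ⁻¹' S₃ := fun z hz => (key z hz).2.2.2.2.1
    rwa [Set.inter_eq_left.2 hsub2] at h0123
  · exact ⟨(h₃ _ (key z hz).2.2.2.2.1).1, (key z hz).2.2.2.2.2⟩

theorem moveStmt_of_core (hcore : CoreGenStmt) : MoveStmt :=
  (moveGenStmt_of_core hcore).move

end Vale.Agent.P209.Asymp
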