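import Vale.Agent.P209.Asymp.Defs

/-!
Monomial maps that add a combination of the other moments to one moment.
-/

namespace Vale.Agent.P209.Asymp

open scoped ContDiff

variable {n : ℕ}

/-- The matrix adding the row `r` to the row `e`. -/
def rowMat (e : Fin n) (r : Fin n → ℤ) : Matrix (Fin n) (Fin n) ℤ :=
  fun j l => (if j = l then 1 else 0) + if j = e then r l else 0

lemma rowMat_mul (e : Fin n) {r : Fin n → ℤ} (hr : r e = 0) :
    rowMat e (-r) * rowMat e r = 1 := by
  ext i l
  simp only [Matrix.mul_apply, rowMat, Matrix.one_apply, add_mul, mul_add, Finset.sum_add_distrib,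
    ite_mul, one_mul, zero_mul, mul_ite, mul_one, mul_zero, Pi.neg_apply]
  by_cases hi : i = e <;> simp [hi, hr]

lemma exists_rowMap (e : Fin n) {r : Fin n → ℤ} (hr : r e = 0) (b : ℝ) {S : Set (Fin n → ℂ)}
    (hS : IsOpen S)
    (h : ∀ z ∈ S, (∀ k, z k ≠ 0) ∧ 0 < act z e + ((∑ l, (r l : ℝ) * act z l) + b)) :
    ∃ φ : (Fin n → ℂ) → (Fin n → ℂ), IsSympEmbOn S φ ∧ ∀ z ∈ S, (∀ k, φ z k ≠ 0) ∧
      ∀ k, act (φ z) k = act z k + if k = e then (∑ l, (r l : ℝ) * act z l) + b else 0 := by
  set A := rowMat e r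
  set B := (rowMat e (-r)).transpose
  have hBA : B.transpose * A = 1 := by rw [Matrix.transpose_transpose]; exact rowMat_mul e hr
  set bb : Fin n → ℝ := fun k => if k = e then b else 0
  have hact : ∀ (z : Fin n → ℂ) (k : Fin n),
      act' A bb z k = act z k + if k = e then (∑ l, (r l : ℝ) * act z l) + b else 0 := by
    intro z k
    by_cases hk : k = e <;>
      simp [act', A, rowMat, bb, hk, add_mul, Finset.sum_add_distrib, ite_mul, add_assoc,
        apply_ite (Int.cast : ℤ → ℝ)]
  have hdom : ∀ z ∈ S, z ∈ monoDom A bb := by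
    refine fun z hz => ⟨(h z hz).1, fun k => ?_⟩
    rw [hact]
    by_cases hk : k = e
    · subst hk; simpa using (h z hz).2
    · simpa [hk] using act_pos' ((h z hz).1 k)
  have hs : ContDiffOn ℝ ∞ (monoMap A B bb) S := fun z hz =>
    (contDiffAt_monoMap (hdom z hz)).contDiffWithinAt
  have hω : ∀ z ∈ S, ∀ u v, omega0 (fderiv ℝ (monoMap A B bb) z u) (fderiv ℝ (monoMap A B bb) z v)
      = omega0 u v := fun z hz u v => monoMap_omega hBA (hdom z hz) u v
  refine ⟨monoMap A B bb, ⟨hS, hs, hω, isOpenEmbedding_of_symp hS hs hω fun x hx y hy he =>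
    monoMap_injOn hBA bb (hdom x hx) (hdom y hy) he⟩, fun z hz => ⟨fun k hk => ?_, fun k => ?_⟩⟩
  · have h1 := act_monoMap (B := B) (hdom z hz) k
    have h2 := (hdom z hz).2 k
    rw [← h1, act, hk] at h2
    simp at h2
  · rw [act_monoMap (hdom z hz), hact]

lemma isOpen_nonzero : IsOpen {z : Fin n → ℂ | ∀ k, z k ≠ 0} := by
  simp only [Set.ofPred_forall]
  exact isOpen_iInter_of_finite fun k => isOpen_ne_fun (continuous_apply k) continuous_const

lemma isOpen_torusDom (a : Fin n → ℝ) (θ : ℝ) : IsOpen (torusDom a θ) := by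
  simp only [torusDom, Set.ofPred_and]
  exact isOpen_nonzero.inter (isOpen_lt (continuous_finsetSum _ fun k _ =>
    (contDiff_act k).continuous.div_const _) continuous_const)

/-- A sum over all indices, split at two of them. -/
lemma sum_split_two {a e : Fin n} (hae : a ≠ e) (F : Fin n → ℝ) :
    ∑ k, F k = F a + F e + ∑ k ∈ (Finset.univ.erase a).erase e, F k := by
  rw [← Finset.add_sum_erase _ F (Finset.mem_univ a),
    ← Finset.add_sum_erase _ F (Finset.mem_erase.2 ⟨hae.symm, Finset.mem_univ e⟩)]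
  ring

end Vale.Agent.P209.Asymp
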