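import Vale.Agent.P209.Asymp.VolDefs
import Vale.Agent.P209.Asymp.Core
import Vale.Agent.P209.Asymp.Row

/-!
P209, high dimensions: the slab `b < ∑ μ < R` beside a big ball is filled by `n` ellipsoids.
-/

namespace Vale.Agent.P209.Asymp

open scoped ContDiff

variable {n : ℕ}

/-- A sum over all indices, split at one of them. -/
lemma sum_split_three (j : Fin n) (F : Fin n → ℝ) :
    ∑ i, F i = (∑ i with i < j, F i) + F j + ∑ i with j < i, F i := by
  have h : (Finset.univ.filter fun i => ¬i < j) = insert j (Finset.univ.filter fun i => j < i) := by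
    ext i
    simp [eq_comm (a := i), le_iff_eq_or_lt]
  rw [← Finset.sum_filter_add_sum_filter_not Finset.univ (fun i => i < j) F, h,
    Finset.sum_insert (by simp), add_assoc]

/-- Points of the image of the piece `j`. -/
def InPiece (j : Fin n) (a b R : ℝ) (μ : Fin n → ℝ) : Prop :=
  (∀ i, 0 < μ i) ∧ a / R * (∑ i with j < i, μ i) < (∑ i, μ i) - b ∧
    ((∑ i, μ i) - b) / a + (∑ i with i < j, μ i) / b < 1

lemma InPiece.sum_gt {j : Fin n} {a b R : ℝ} {μ : Fin n → ℝ} (h : InPiece j a b R μ) (ha : 0 < a)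
    (hR : 0 < R) : b < ∑ i, μ i := by
  have h1 : 0 ≤ a / R * ∑ i with j < i, μ i :=
    mul_nonneg (by positivity) (Finset.sum_nonneg fun i _ => (h.1 i).le)
  linarith [h.2.1]

lemma InPiece.sum_lt {j : Fin n} {a b R : ℝ} {μ : Fin n → ℝ} (h : InPiece j a b R μ) (ha : 0 < a)
    (hb : 0 < b) (hab : a + b = R) : ∑ i, μ i < R := by
  have h1 : 0 ≤ (∑ i with i < j, μ i) / b :=
    div_nonneg (Finset.sum_nonneg fun i _ => (h.1 i).le) hb.le
  have h2 : ((∑ i, μ i) - b) / a < 1 := by linarith [h.2.2]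
  rw [div_lt_one ha] at h2
  linarith

lemma InPiece.false_of_lt {j j' : Fin n} {a b R : ℝ} {μ : Fin n → ℝ} (hjj : j < j')
    (h : InPiece j a b R μ) (h' : InPiece j' a b R μ) (ha : 0 < a) (hb : 0 < b) (hab : a + b = R) :
    False := by
  obtain ⟨hpos, h1, -⟩ := h
  obtain ⟨-, -, h2⟩ := h'
  set S1 := ∑ i with i < j, μ i
  set S2 := ∑ i with j < i, μ i
  set S' := ∑ i with i < j', μ i
  have hsplit := sum_split_three j μ
  have hS : S1 + μ j ≤ S' := by
    refine le_trans (le_of_eq ?_) (Finset.sum_le_sum_of_subset_of_nonneg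
      (s := insert j (Finset.univ.filter fun i => i < j)) (fun i hi => ?_) fun i _ _ => (hpos i).le)
    · rw [Finset.sum_insert (by simp), add_comm]
    · simp only [Finset.mem_insert, Finset.mem_filter, Finset.mem_univ, true_and] at hi ⊢
      rcases hi with rfl | hi
      · exact hjj
      · exact hi.trans hjj
  set T := ∑ i, μ i
  rw [div_mul_eq_mul_div, div_lt_iff₀ (by linarith)] at h1
  rw [div_add_div _ _ ha.ne' hb.ne', div_lt_one (by positivity)] at h2
  subst hab
  nlinarith [mul_le_mul_of_nonneg_left hS ha.le]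

/-- The map of the piece `j`. -/
lemma exists_pieceMap (j : Fin n) {a b R θ : ℝ} (ha : 0 < a) (hb : 0 < b) (hab : a + b = R)
    (hθ : θ < 1) :
    ∃ Φ : (Fin n → ℂ) → (Fin n → ℂ), IsSympEmbOn (torusDom (pieceVec j a b R) θ) Φ ∧
      ∀ z ∈ torusDom (pieceVec j a b R) θ, InPiece j a b R (act (Φ z)) := by
  classical
  have hR : 0 < R := by linarith
  set f : (Fin n → ℝ) → ℝ := fun P => a / R * ∑ i with j < i, P i
  obtain ⟨C, hC, hC'⟩ := coreGenStmt n j a (a * (1 - θ)) f ha (mul_pos ha (by linarith))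
    (contDiff_const.mul (ContDiff.sum fun i _ => contDiff_apply ℝ ℝ i))
    (fun P hP => mul_nonneg (by positivity) (Finset.sum_nonneg fun i _ => (hP i).le))
    (fun P t => congr_arg (a / R * ·) (Finset.sum_congr rfl fun i hi =>
      Function.update_of_ne (Finset.mem_filter.1 hi).2.ne' _ _))
  set V := torusDom (pieceVec j a b R) θ
  have hV : IsOpen V := isOpen_torusDom _ _
  have hpt : ∀ z ∈ V, act z j < a ∧
      (∑ i with i < j, act z i) / b + act z j / a + (∑ i with j < i, act z i) / R < θ := by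
    intro z hz
    have h := hz.2
    rw [sum_split_three j, show pieceVec j a b R j = a by simp [pieceVec],
      Finset.sum_congr rfl fun i hi => show act z i / pieceVec j a b R i = act z i / b by
        have := (Finset.mem_filter.1 hi).2
        simp [pieceVec, this, this.ne],
      Finset.sum_congr rfl fun i hi => show act z i / pieceVec j a b R i = act z i / R by
        have := (Finset.mem_filter.1 hi).2
        simp [pieceVec, this.ne', this.not_gt], ← Finset.sum_div, ← Finset.sum_div] at h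
    refine ⟨?_, h⟩
    have h1 : 0 ≤ (∑ i with i < j, act z i) / b :=
      div_nonneg (Finset.sum_nonneg fun i _ => (act_pos' (hz.1 i)).le) hb.le
    have h2 : 0 ≤ (∑ i with j < i, act z i) / R :=
      div_nonneg (Finset.sum_nonneg fun i _ => (act_pos' (hz.1 i)).le) hR.le
    have h3 : act z j / a < 1 := by linarith
    rwa [div_lt_one ha] at h3
  set S : Set (Fin n → ℂ) := C '' V
  have hVU : V ⊆ {z | (∀ k, z k ≠ 0) ∧ act z j < a} := fun z hz => ⟨hz.1, (hpt z hz).1⟩
  have hCV : IsSympEmbOn V C := by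
    obtain ⟨hU, hs, hω, he⟩ := hC
    exact ⟨hV, hs.mono hVU, fun x hx => hω x (hVU hx), isOpenEmbedding_of_symp hV (hs.mono hVU)
      (fun x hx => hω x (hVU hx)) fun x hx y hy h => congr_arg Subtype.val
        (he.injective (a₁ := ⟨x, hVU hx⟩) (a₂ := ⟨y, hVU hy⟩) h)⟩
  have hS : IsOpen S := by
    have := hCV.2.2.2.isOpen_range
    rwa [Set.range_comp' C Subtype.val, Subtype.range_coe] at this
  have key : ∀ w ∈ S, (∀ k, w k ≠ 0) ∧
      a / R * (∑ i with j < i, act w i) < act w j ∧
      act w j / a + (∑ i with i < j, act w i) / b < 1 ∧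
      0 < act w j + (b - (∑ i with i < j, act w i) - ∑ i with j < i, act w i) := by
    rintro _ ⟨z, hz, rfl⟩
    obtain ⟨hne, ho, hlo, hup⟩ := hC' z hz.1 (hpt z hz).1
    have e1 : ∑ i with i < j, act (C z) i = ∑ i with i < j, act z i :=
      Finset.sum_congr rfl fun i hi => ho i (Finset.mem_filter.1 hi).2.ne
    have e2 : ∑ i with j < i, act (C z) i = ∑ i with j < i, act z i :=
      Finset.sum_congr rfl fun i hi => ho i (Finset.mem_filter.1 hi).2.ne'
    have h := (hpt z hz).2
    simp only [f] at hlo hup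
    rw [e1, e2]
    set S1 := ∑ i with i < j, act z i
    set S2 := ∑ i with j < i, act z i
    set y := act (C z) j
    have h2 : y / a + S1 / b < 1 := by
      have hy : y / a ≤ act z j / a + (1 - θ) + S2 / R := by
        rw [div_le_iff₀ ha]
        refine hup.trans (le_of_eq ?_)
        field_simp
      linarith
    refine ⟨hne, hlo, h2, ?_⟩
    rw [div_add_div _ _ ha.ne' hb.ne', div_lt_one (by positivity)] at h2
    rw [div_mul_eq_mul_div, div_lt_iff₀ hR] at hlo
    subst hab
    nlinarith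
  obtain ⟨M, hM, hM'⟩ := exists_rowMap j (r := fun i => if i = j then 0 else -1) (by simp) b hS
    fun w hw => ⟨(key w hw).1, by
      have h := (key w hw).2.2.2
      rw [sum_split_three j,
        Finset.sum_congr rfl fun i hi => show ((if i = j then (0 : ℤ) else -1 : ℤ) : ℝ) * act w i = -act w i by
          simp [(Finset.mem_filter.1 hi).2.ne],
        Finset.sum_congr rfl fun i hi => show ((if i = j then (0 : ℤ) else -1 : ℤ) : ℝ) * act w i = -act w i by
          simp [(Finset.mem_filter.1 hi).2.ne'],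
        Finset.sum_neg_distrib, Finset.sum_neg_distrib]
      simp only [if_true, Int.cast_zero, zero_mul]
      linarith⟩
  have hΦ := isSympEmbOn_comp hCV hM
  rw [Set.inter_eq_left.2 (Set.subset_preimage_image C V)] at hΦ
  refine ⟨M ∘ C, hΦ, fun z hz => ?_⟩
  obtain ⟨hne, hlo, hup, -⟩ := key (C z) ⟨z, hz, rfl⟩
  obtain ⟨hMne, hact⟩ := hM' (C z) ⟨z, hz, rfl⟩
  have e1 : ∑ i with i < j, act (M (C z)) i = ∑ i with i < j, act (C z) i :=
    Finset.sum_congr rfl fun i hi => by rw [hact, if_neg (Finset.mem_filter.1 hi).2.ne, add_zero]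
  have e2 : ∑ i with j < i, act (M (C z)) i = ∑ i with j < i, act (C z) i :=
    Finset.sum_congr rfl fun i hi => by rw [hact, if_neg (Finset.mem_filter.1 hi).2.ne', add_zero]
  have e3 : (∑ i, act (M (C z)) i) - b = act (C z) j := by
    rw [Finset.sum_congr rfl fun i _ => hact i, Finset.sum_add_distrib, Finset.sum_ite_eq' Finset.univ j,
      if_pos (Finset.mem_univ j), sum_split_three j (act (C z)),
      sum_split_three j (fun i => ((if i = j then (0 : ℤ) else -1 : ℤ) : ℝ) * act (C z) i),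
      Finset.sum_congr rfl fun i hi =>
        show ((if i = j then (0 : ℤ) else -1 : ℤ) : ℝ) * act (C z) i = -act (C z) i by
          simp [(Finset.mem_filter.1 hi).2.ne],
      Finset.sum_congr rfl fun i hi =>
        show ((if i = j then (0 : ℤ) else -1 : ℤ) : ℝ) * act (C z) i = -act (C z) i by
          simp [(Finset.mem_filter.1 hi).2.ne'],
      Finset.sum_neg_distrib, Finset.sum_neg_distrib]
    simp only [if_true, Int.cast_zero, zero_mul]
    ring
  refine ⟨fun i => act_pos' (hMne i), ?_, ?_⟩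
  · rw [Function.comp_apply, e2, e3]; exact hlo
  · rw [Function.comp_apply, e1, e3]; exact hup

theorem pieceStmt : PieceStmt := by
  classical
  intro n k R a b r i0 f ha hb hab h0 hr0 hP
  have hn : 0 < n ∨ ∀ i : Fin k, i = i0 := by
    by_cases h : ∀ i : Fin k, i = i0
    · exact Or.inr h
    · push Not at h
      obtain ⟨i, hi⟩ := h
      exact Or.inl (Fin.pos_iff_nonempty.2 ⟨f ⟨i, hi⟩⟩)
  rcases hn with hn | hone
  swap
  · have : Subsingleton (Fin k) := ⟨fun i j => (hone i).trans (hone j).symm⟩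
    exact hasPacking_iff.2 (packs_subsingleton fun i => by rw [hone i]; linarith)
  choose θ hθ0 hθ1 φ W hW hd using hP
  choose Φ hΦ hΦ' using fun j => exists_pieceMap j ha hb hab (hθ1 j)
  obtain ⟨U, ψ, hU, hsub, hψs, hψi, hψω, hψ⟩ :=
    exists_ball_map (δ := b - r i0) hn h0.le (by linarith)
  have hbig : IsSympEmbOn U ψ := ⟨hU, hψs.contDiffOn, fun x _ => hψω x,
    isOpenEmbedding_of_symp hU hψs.contDiffOn (fun x _ => hψω x) hψi.injOn⟩
  have hbig' : ∀ x ∈ U, capacity (ψ x) < b := fun x hx => by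
    have := (hψ x hx).2
    rw [capacity_eq]; linarith
  let F : {i // i ≠ i0} → (Fin n → ℂ) → (Fin n → ℂ) := fun i => Φ (f i) ∘ φ (f i) ⟨i, rfl⟩
  have hF : ∀ i, ∀ x ∈ closedCapBall n (r i.1),
      InPiece (f i) a b R (act (F i x)) :=
    fun i x hx => hΦ' (f i) _ ((hW (f i) ⟨i, rfl⟩).2.2 ((hW (f i) ⟨i, rfl⟩).1 hx))
  have hFd : ∀ i i', i ≠ i' → Disjoint (F i '' closedCapBall n (r i.1)) (F i' '' closedCapBall n (r i'.1)) := by
    intro i i' hii
    rw [Set.disjoint_left]
    rintro p ⟨x, hx, rfl⟩ ⟨y, hy, he⟩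
    rcases lt_trichotomy (f i) (f i') with hlt | heq | hlt
    · exact InPiece.false_of_lt hlt (hF i x hx) (he ▸ hF i' y hy) ha hb hab
    · have hcongr : ∀ (j : Fin n) (h : f i' = j), F i' y = Φ j (φ j ⟨i', h⟩ y) := by
        rintro j rfl; rfl
      rw [hcongr (f i) heq.symm] at he
      have mx : φ (f i) ⟨i, rfl⟩ x ∈ torusDom (pieceVec (f i) a b R) (θ (f i)) :=
        (hW _ _).2.2 ((hW _ ⟨i, rfl⟩).1 hx)
      have my : φ (f i) ⟨i', heq.symm⟩ y ∈ torusDom (pieceVec (f i) a b R) (θ (f i)) :=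
        (hW _ _).2.2 ((hW _ ⟨i', heq.symm⟩).1 hy)
      have h1 := congr_arg Subtype.val ((hΦ (f i)).2.2.2.injective (a₁ := ⟨_, my⟩) (a₂ := ⟨_, mx⟩) he)
      exact Set.disjoint_left.1 (hd (f i) (show (⟨i', heq.symm⟩ : {l // f l = f i}) ≠ ⟨i, rfl⟩ from
        fun e => hii (congr_arg Subtype.val e).symm))
        ⟨y, (hW _ _).1 hy, rfl⟩ ⟨x, (hW _ _).1 hx, h1.symm⟩
    · exact InPiece.false_of_lt hlt (he ▸ hF i' y hy) (hF i x hx) ha hb hab
  refine ⟨fun i => if h : i = i0 then ψ else F ⟨i, h⟩, fun i => ?_, fun i x hx => ?_, fun i i' hii => ?_⟩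
  · by_cases h : i = i0
    · subst h; simp only [dite_true]; exact ⟨U, hsub, hbig⟩
    · simp only [dif_neg h]
      refine ⟨W (f ⟨i, h⟩) ⟨⟨i, h⟩, rfl⟩, (hW (f ⟨i, h⟩) ⟨⟨i, h⟩, rfl⟩).1, ?_⟩
      have := isSympEmbOn_comp (hW (f ⟨i, h⟩) ⟨⟨i, h⟩, rfl⟩).2.1 (hΦ (f ⟨i, h⟩))
      rwa [Set.inter_eq_left.2 (hW _ _).2.2.subset_preimage] at this
  · show capacity _ < R
    by_cases h : i = i0
    · subst h; simp only [dite_true]; linarith [hbig' x (hsub hx)]
    · simp only [dif_neg h]
      rw [capacity_eq]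
      exact (hF ⟨i, h⟩ x hx).sum_lt ha hb hab
  · have hsep : ∀ (i : {i // i ≠ i0}) x y, x ∈ closedCapBall n (r i.1) → y ∈ closedCapBall n (r i0) →
        F i x ≠ ψ y := fun i x y hx hy h => by
      have h1 := (hF i x hx).sum_gt ha (by linarith)
      rw [h, ← capacity_eq] at h1
      linarith [hbig' y (hsub hy)]
    dsimp only
    rw [Set.disjoint_left]
    rintro p ⟨x, hx, rfl⟩ ⟨y, hy, he⟩
    by_cases h : i = i0 <;> by_cases h' : i' = i0
    · exact hii (h.trans h'.symm)
    · subst h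
      simp only [dite_true, dif_neg h'] at he
      exact hsep ⟨i', h'⟩ y x hy hx he
    · subst h'
      simp only [dite_true, dif_neg h] at he
      exact hsep ⟨i, h⟩ x y hx hy he.symm
    · simp only [dif_neg h, dif_neg h'] at he
      exact Set.disjoint_left.1 (hFd ⟨i, h⟩ ⟨i', h'⟩ fun e => hii (congr_arg Subtype.val e))
        ⟨x, hx, rfl⟩ ⟨y, hy, he⟩

end Vale.Agent.P209.Asymp
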