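import Vale.Agent.P209.Asymp.Merge
import Vale.Agent.P209.Asymp.Move

/-!
Chains of moves: units of size `s` become units of size `s p / q` with only an additive loss.
-/

namespace Vale.Agent.P209.Asymp

variable {n : ℕ}

/-- The axis lengths after the axes in `S` have been raised to `s p / q`. -/
noncomputable def stage (e : Fin n) (s : ℝ) (p q : ℕ) (S : Finset (Fin n)) (T : ℕ) : Fin n → ℝ :=
  fun k => if k = e then (T : ℝ) * s else if k ∈ S then s * p / q else s

lemma stage_pos {e : Fin n} {s : ℝ} (hs : 0 < s) {p q : ℕ} (hq : 0 < q) (hpq : q < p)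
    (S : Finset (Fin n)) {T : ℕ} (hT : 1 ≤ T) (k : Fin n) : 0 < stage e s p q S T k := by
  have : (0 : ℝ) < T := Nat.cast_pos.2 hT
  have : (0 : ℝ) < p := Nat.cast_pos.2 (hq.trans hpq)
  have : (0 : ℝ) < q := Nat.cast_pos.2 hq
  unfold stage
  split_ifs <;> positivity

/-- One step: `m p²` units on the long axis become `m p q`. -/
lemma fill_step (hm : MoveStmt) {e a : Fin n} (hae : a ≠ e) {s : ℝ} (hs : 0 < s) {p q : ℕ} (hq : 0 < q)
    (hpq : q < p) {S : Finset (Fin n)} (haS : a ∉ S) {m : ℕ} (hm0 : 1 ≤ m) :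
    Fill (stage e s p q S (m * p ^ 2)) (stage e s p q (insert a S) (m * p * q)) := by
  have hp : 0 < p := hq.trans hpq
  set u := (p - q) * m * p
  set w := (p - q) * m * q
  have hd : 0 < p - q := Nat.sub_pos_of_lt hpq
  have hw : 0 < w := by positivity
  have hwu : w < u := Nat.mul_lt_mul_of_pos_left hpq (by positivity)
  have hcast : ((p - q : ℕ) : ℝ) = (p : ℝ) - q := by rw [Nat.cast_sub hpq.le]
  have hd' : (0 : ℝ) < (p : ℝ) - q := sub_pos.2 (Nat.cast_lt.2 hpq)
  have hq' : (0 : ℝ) < q := Nat.cast_pos.2 hq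
  have hp' : (0 : ℝ) < p := Nat.cast_pos.2 hp
  have hm' : (0 : ℝ) < m := Nat.cast_pos.2 hm0
  have hu : (u : ℝ) = ((p : ℝ) - q) * m * p := by simp only [u, Nat.cast_mul, hcast]
  have hwr : (w : ℝ) = ((p : ℝ) - q) * m * q := by simp only [w, Nat.cast_mul, hcast]
  have hsub : (u : ℝ) - w = ((p : ℝ) - q) * m * ((p : ℝ) - q) := by rw [hu, hwr]; ring
  have h := hm n a e hae s u w hs hw hwu (stage e s p q S (m * p ^ 2))
    (stage_pos hs hq hpq S (by have := Nat.pow_pos (n := 2) hp; exact Nat.mul_pos hm0 this))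
    (by simp [stage, hae, haS])
    (by rw [stage, if_pos rfl, hsub, hu]; push_cast; field_simp)
    (fun o _ hoe => by
      by_cases hoS : o ∈ S
      · refine ⟨(w : ℤ), ?_⟩
        rw [stage, if_neg hoe, if_pos hoS, Int.cast_natCast, hu, hwr]
        field_simp
      · exact ⟨(u : ℤ), by rw [stage, if_neg hoe, if_neg hoS, Int.cast_natCast]⟩)
  convert h using 1
  funext k
  rw [hsub, hu, hwr]
  by_cases hke : k = e
  · subst hke
    rw [Function.update_self, stage, if_pos rfl]
    push_cast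
    field_simp
  · rw [Function.update_of_ne hke]
    by_cases hka : k = a
    · subst hka
      rw [Function.update_self, stage, if_neg hke, if_pos (Finset.mem_insert_self _ _)]
      field_simp
    · rw [Function.update_of_ne hka, stage, stage, if_neg hke, if_neg hke]
      simp [hka]

/-- Raising the axes in `S`. -/
lemma fill_stage (hm : MoveStmt) {e : Fin n} {s : ℝ} (hs : 0 < s) {p q : ℕ} (hq : 0 < q) (hpq : q < p)
    {K : ℕ} (hK : 1 ≤ K) (S : Finset (Fin n)) : e ∉ S →
    ∃ T : ℕ, 1 ≤ T ∧ (T : ℝ) ≤ K * ((q : ℝ) / p) ^ S.card + (p : ℝ) ^ 3 ∧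
      Fill (stage e s p q ∅ K) (stage e s p q S T) := by
  induction S using Finset.induction_on with
  | empty => exact fun _ => ⟨K, hK, by simp, Fill.of_le (stage_pos hs hq hpq _ hK) fun k => le_rfl⟩
  | insert a S haS ih =>
    intro he
    simp only [Finset.mem_insert, not_or] at he
    obtain ⟨T, hT, hTle, hF⟩ := ih he.2
    have hp : 0 < p := hq.trans hpq
    have hp2 : 0 < p ^ 2 := Nat.pow_pos hp
    set m := (T + (p ^ 2 - 1)) / p ^ 2
    have hlt : T + (p ^ 2 - 1) < m * p ^ 2 + p ^ 2 := Nat.lt_div_mul_add hp2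
    have hle : m * p ^ 2 ≤ T + (p ^ 2 - 1) := Nat.div_mul_le_self _ _
    have hTm : T ≤ m * p ^ 2 := by lia
    have hm0 : 1 ≤ m := by
      rcases Nat.eq_zero_or_pos m with h | h
      · rw [h] at hTm; lia
      · exact h
    refine ⟨m * p * q, Nat.mul_pos (Nat.mul_pos hm0 hp) hq, ?_, hF.trans
      ((Fill.of_le (stage_pos hs hq hpq _ hT) fun k => ?_).trans (fill_step hm (Ne.symm he.1) hs hq hpq haS hm0))⟩
    · rw [Finset.card_insert_of_notMem haS, pow_succ]
      have hq' : (0 : ℝ) < q := Nat.cast_pos.2 hq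
      have hp' : (0 : ℝ) < p := Nat.cast_pos.2 hp
      have hqp : (q : ℝ) + 1 ≤ p := by exact_mod_cast hpq
      have hmr : (m : ℝ) * (p : ℝ) ^ 2 ≤ T + (p : ℝ) ^ 2 := by
        have : m * p ^ 2 ≤ T + p ^ 2 := by lia
        exact_mod_cast this
      have h1 : (m : ℝ) * p * q ≤ (q : ℝ) / p * (T + (p : ℝ) ^ 2) := by
        rw [div_mul_eq_mul_div, le_div_iff₀ hp']
        nlinarith [mul_le_mul_of_nonneg_left hmr hq'.le]
      have h2 : (q : ℝ) / p * (T + (p : ℝ) ^ 2)
          ≤ (q : ℝ) / p * (K * ((q : ℝ) / p) ^ S.card + (p : ℝ) ^ 3 + (p : ℝ) ^ 2) :=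
        mul_le_mul_of_nonneg_left (by linarith) (by positivity)
      have h3 : (q : ℝ) / p * ((p : ℝ) ^ 3 + (p : ℝ) ^ 2) ≤ (p : ℝ) ^ 3 := by
        rw [div_mul_eq_mul_div, div_le_iff₀ hp']
        have := mul_le_mul_of_nonneg_right hqp (pow_nonneg hp'.le 3)
        nlinarith [mul_le_mul_of_nonneg_right (show (q : ℝ) ≤ p by linarith) (pow_nonneg hp'.le 2)]
      push_cast
      nlinarith
    · unfold stage
      split_ifs
      · exact mul_le_mul_of_nonneg_right (by exact_mod_cast hTm) hs.le
      all_goals exact le_rfl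

/-- The exact chain for `p = 2`, `q = 1`. -/
lemma fill_double (hm : MoveStmt) {e : Fin n} {s : ℝ} (hs : 0 < s) (S : Finset (Fin n)) : e ∉ S →
    Fill (stage e s 2 1 ∅ (2 ^ n)) (stage e s 2 1 S (2 ^ (n - S.card))) := by
  induction S using Finset.induction_on with
  | empty => exact fun _ => Fill.of_le (stage_pos hs one_pos one_lt_two _ (Nat.two_pow_pos n)) fun k => le_rfl
  | insert a S haS ih =>
    intro he
    simp only [Finset.mem_insert, not_or] at he
    have hc : S.card + 2 ≤ n := by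
      have h1 : (insert e (insert a S)).card ≤ n := by simpa using Finset.card_le_univ (insert e (insert a S))
      rw [Finset.card_insert_of_notMem (by simp [he.1, he.2]), Finset.card_insert_of_notMem haS] at h1
      lia
    obtain ⟨j, hj⟩ : ∃ j, n - S.card = j + 2 := ⟨n - S.card - 2, by lia⟩
    have h := fill_step hm (Ne.symm he.1) hs one_pos one_lt_two haS (m := 2 ^ j) Nat.one_le_two_pow
    rw [Finset.card_insert_of_notMem haS, show n - (S.card + 1) = j + 1 by lia]
    refine (ih he.2).trans ?_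
    rw [hj]
    convert h using 2
    · ring
    · ring

theorem pushStmt_of_move (hm : MoveStmt) : PushStmt := by
  constructor
  · intro n e s p q K hs hq hpq hK
    have hn : 0 < n := Fin.pos_iff_nonempty.2 ⟨e⟩
    obtain ⟨T, hT, hTle, hF⟩ := fill_stage hm (e := e) hs hq hpq hK (Finset.univ.erase e) (by simp)
    have hcard : (Finset.univ.erase e).card + 1 = n := by
      rw [Finset.card_erase_add_one (Finset.mem_univ e)]; simp
    have hq' : (0 : ℝ) < q := Nat.cast_pos.2 hq
    have hp' : (0 : ℝ) < p := Nat.cast_pos.2 (hq.trans hpq)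
    have hT' : (0 : ℝ) < T := Nat.cast_pos.2 hT
    set x := (T : ℝ) * q / p
    have hx : 0 < x := by positivity
    refine ⟨⌈x⌉₊, Nat.one_le_ceil_iff.2 hx, ?_, ?_⟩
    · have h1 := (Nat.ceil_lt_add_one hx.le).le
      have h2 : x ≤ (K * ((q : ℝ) / p) ^ (Finset.univ.erase e).card + (p : ℝ) ^ 3) * q / p := by
        simp only [x]; gcongr
      have h3 : (K * ((q : ℝ) / p) ^ (Finset.univ.erase e).card + (p : ℝ) ^ 3) * q / p
          = K * ((q : ℝ) / p) ^ n + (p : ℝ) ^ 3 * ((q : ℝ) / p) := by
        conv_rhs => rw [← hcard, pow_succ]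
        ring
      have h4 : (p : ℝ) ^ 3 * ((q : ℝ) / p) ≤ (p : ℝ) ^ 3 := by
        refine mul_le_of_le_one_right (by positivity) ((div_le_one hp').2 ?_)
        exact_mod_cast hpq.le
      linarith
    · have h0 : stage e s p q ∅ K = unitVec e s K := by funext k; simp [stage, unitVec]
      rw [h0] at hF
      refine hF.trans (Fill.of_le (stage_pos hs hq hpq _ hT) fun k => ?_)
      unfold stage unitVec
      split_ifs with h1 h2
      · have h5 := Nat.le_ceil x
        calc (T : ℝ) * s = x * (s * p / q) := by simp only [x]; field_simp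
          _ ≤ (⌈x⌉₊ : ℝ) * (s * p / q) := by gcongr
      · exact le_rfl
      · exact absurd (Finset.mem_erase.2 ⟨h1, Finset.mem_univ k⟩) h2
  · intro n e s hs
    have hn : 0 < n := Fin.pos_iff_nonempty.2 ⟨e⟩
    have h := fill_double hm (e := e) hs (Finset.univ.erase e) (by simp)
    have h0 : stage e s 2 1 ∅ (2 ^ n) = unitVec e s (2 ^ n) := by funext k; simp [stage, unitVec]
    have h1 : stage e s 2 1 (Finset.univ.erase e) (2 ^ (n - (Finset.univ.erase e).card))
        = fun _ => 2 * s := by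
      funext k
      have hc : n - (Finset.univ.erase e).card = 1 := by
        rw [Finset.card_erase_of_mem (Finset.mem_univ e)]; simp; lia
      rw [hc]
      by_cases hk : k = e <;> simp [stage, hk, mul_comm]
    rwa [h0, h1] at h

end Vale.Agent.P209.Asymp
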