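import Vale.Agent.P209.Asymp.Exp
import Vale.Agent.P209.Recursion

/-!
P209: one constant for every dimension.
-/

namespace Vale.Agent.P209.Asymp

/-- Sufficiency in every dimension, for every number of balls, up to one absolute constant. -/
def UniformConstant : Prop :=
  ∃ C : ℝ, 1 ≤ C ∧ ∀ (n k : ℕ), 1 ≤ n → ∀ (R : ℝ) (r : Fin k → ℝ), 0 < R →
    (∀ i, 0 < r i ∧ r i < R) → (∀ i j, i ≠ j → r i + r j < R) →
    ∀ p : Fin k, r p ^ n + C * ∑ i ∈ Finset.univ.erase p, r i ^ n ≤ R ^ n → HasPacking n R r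

theorem uniformConstant_of_volume (hv : VolumeExponential) : UniformConstant := by
  obtain ⟨N, hN⟩ : ∃ N : ℕ, ∀ n : ℕ, N ≤ n → ∀ (k : ℕ) (R : ℝ) (r : Fin k → ℝ), 0 < R →
      (∀ i, 0 < r i ∧ r i < R) → (∀ i j, i ≠ j → r i + r j < R) →
      ∀ p : Fin k, r p ^ n + (1 + 1 / (2 : ℝ) ^ (n / 16)) * ∑ i ∈ Finset.univ.erase p, r i ^ n ≤ R ^ n →
        HasPacking n R r := ⟨768, hv⟩
  refine ⟨max 2 ((N : ℝ) * 4 ^ N), le_max_of_le_left one_le_two, fun n k hn R r hR hr hp p hC => ?_⟩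
  have hS : 0 ≤ ∑ i ∈ Finset.univ.erase p, r i ^ n := Finset.sum_nonneg fun i _ => pow_nonneg (hr i).1.le n
  rcases le_or_gt N n with hn' | hn'
  · refine hN n hn' k R r hR hr hp p (le_trans ?_ hC)
    gcongr
    refine le_trans ?_ (le_max_left _ _)
    have : 1 / (2 : ℝ) ^ (n / 16) ≤ 1 := by
      rw [div_le_one (by positivity)]; exact one_le_pow₀ (by norm_num)
    linarith
  · have : Nonempty (Fin k) := ⟨p⟩
    obtain ⟨q, hq⟩ := Finite.exists_max r
    refine hasPacking_const hn hR (fun i => (hr i).1) q hq (hr q).2 (fun i hi => hp i q hi) ?_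
    have hc : (n : ℝ) * 4 ^ n ≤ max 2 ((N : ℝ) * 4 ^ N) := le_max_of_le_right (by gcongr; norm_num)
    have h1 : 1 ≤ max 2 ((N : ℝ) * 4 ^ N) := le_max_of_le_left one_le_two
    have hpq : r p ^ n ≤ r q ^ n := pow_le_pow_left₀ (hr p).1.le (hq p) n
    have hSq : 0 ≤ ∑ i ∈ Finset.univ.erase q, r i ^ n :=
      Finset.sum_nonneg fun i _ => pow_nonneg (hr i).1.le n
    have e1 := Finset.add_sum_erase Finset.univ (fun i => r i ^ n) (Finset.mem_univ p)
    have e2 := Finset.add_sum_erase Finset.univ (fun i => r i ^ n) (Finset.mem_univ q)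
    nlinarith [mul_le_mul_of_nonneg_right hc hSq, mul_le_mul_of_nonneg_left hpq (sub_nonneg.2 h1)]

end Vale.Agent.P209.Asymp
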