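import Vale.Agent.P209.Asymp.VolDefs
import Vale.Agent.P209.Asymp.Count
import Vale.Agent.P209.Asymp.Push

/-!
Distributing the smaller balls over the pieces of the slab.
-/

namespace Vale.Agent.P209.Asymp

open scoped Topology
open Filter Finset

variable {n : ℕ}

/-- Items of weight at most one fit greedily in capacities with one unit of slack each. -/
lemma exists_partition {ι : Type*} {m : ℕ} (hm : 0 < m) (w : ι → ℝ) (C : Fin m → ℝ)
    (hC : ∀ j, 0 ≤ C j) (S : Finset ι) :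
    (∀ i ∈ S, 0 ≤ w i ∧ w i ≤ 1) → ∑ i ∈ S, w i + m ≤ ∑ j, C j →
      ∃ f : ι → Fin m, ∀ j, ∑ i ∈ S.filter (fun i => f i = j), w i ≤ C j := by
  classical
  induction S using Finset.induction_on with
  | empty => exact fun _ _ => ⟨fun _ => ⟨0, hm⟩, fun j => by simpa using hC j⟩
  | insert x S hx ih =>
    intro hw hsum
    rw [Finset.sum_insert hx] at hsum
    have hx0 := hw x (Finset.mem_insert_self _ _)
    obtain ⟨f, hf⟩ := ih (fun i hi => hw i (Finset.mem_insert_of_mem hi)) (by linarith)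
    obtain ⟨j0, hj0⟩ : ∃ j, ∑ i ∈ S.filter (fun i => f i = j), w i + w x ≤ C j := by
      by_contra hcon
      push Not at hcon
      have h1 : ∑ j, C j < ∑ j : Fin m, (∑ i ∈ S.filter (fun i => f i = j), w i + w x) :=
        Finset.sum_lt_sum_of_nonempty ⟨⟨0, hm⟩, Finset.mem_univ _⟩ fun j _ => hcon j
      rw [Finset.sum_add_distrib, Finset.sum_fiberwise, Finset.sum_const, Finset.card_univ,
        Fintype.card_fin, nsmul_eq_mul] at h1
      nlinarith [show (0 : ℝ) ≤ m from Nat.cast_nonneg m]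
    refine ⟨Function.update f x j0, fun j => ?_⟩
    have hS : S.filter (fun i => Function.update f x j0 i = j) = S.filter (fun i => f i = j) :=
      Finset.filter_congr fun i hi => by rw [Function.update_of_ne (ne_of_mem_of_not_mem hi hx)]
    rw [Finset.filter_insert, Function.update_self]
    split_ifs with h
    · subst h
      rw [hS, Finset.sum_insert (fun hh => hx (Finset.mem_filter.1 hh).1)]
      linarith
    · rw [hS]; exact hf j

/-- The first `m` terms of a decreasing sequence are above average. -/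
lemma sum_prefix_ge (x : ℕ → ℝ) {N : ℕ} (hx : ∀ i j, i ≤ j → j < N → x j ≤ x i) {m : ℕ} (hm : m ≤ N) :
    (m : ℝ) * ∑ i ∈ range N, x i ≤ N * ∑ i ∈ range m, x i := by
  suffices key : ∀ d, m + d ≤ N → (m : ℝ) * ∑ i ∈ range (m + d), x i
      ≤ (m + d : ℕ) * ∑ i ∈ range m, x i by
    obtain ⟨d, rfl⟩ := Nat.exists_eq_add_of_le hm
    exact key d le_rfl
  intro d
  induction d with
  | zero => simp
  | succ d ih =>
    intro hd
    have h1 : (m : ℝ) * x (m + d) ≤ ∑ i ∈ range m, x i := by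
      rw [show (m : ℝ) * x (m + d) = ∑ i ∈ range m, x (m + d) by simp]
      exact Finset.sum_le_sum fun i hi => hx i _ (by have := Finset.mem_range.1 hi; lia) (by lia)
    have h2 := ih (by lia)
    rw [← add_assoc, Finset.sum_range_succ]
    push_cast at h2 ⊢
    linarith

lemma packsIn_of_isEmpty {ι : Type*} [IsEmpty ι] (A : Fin n → ℝ) (r : ι → ℝ) : PacksIn A r :=
  ⟨1 / 2, by norm_num, by norm_num, fun i => isEmptyElim i, fun i => isEmptyElim i,
    fun i => isEmptyElim i, fun i => isEmptyElim i⟩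

/-- The first `m` pieces carry their share of the slab. -/
lemma pieces_volume {a b R : ℝ} (ha : 0 < a) (hb : 0 ≤ b) (hbR : b ≤ R) (hab : a + b = R) {n m : ℕ}
    (hn : 1 ≤ n) (hmn : m ≤ n) :
    (m : ℝ) / n * (R ^ n - b ^ n)
      ≤ a ^ n * ∑ j : Fin m, b ^ (j : ℕ) * R ^ (n - 1 - (j : ℕ)) / a ^ (n - 1) := by
  have hn0 : (0 : ℝ) < n := Nat.cast_pos.2 (by lia)
  have hR : 0 ≤ R := hb.trans hbR
  have hgeom : a * ∑ i ∈ range n, b ^ i * R ^ (n - 1 - i) = R ^ n - b ^ n := by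
    have := geom_sum₂_mul b R n
    rw [show b - R = -a by linarith] at this
    linarith
  have hpre := sum_prefix_ge (fun i => b ^ i * R ^ (n - 1 - i)) (N := n) (fun i j hij hj => by
    have e1 : b ^ j = b ^ i * b ^ (j - i) := by rw [← pow_add]; congr 1; lia
    have e2 : R ^ (n - 1 - i) = R ^ (j - i) * R ^ (n - 1 - j) := by rw [← pow_add]; congr 1; lia
    rw [e1, e2, mul_assoc]
    gcongr) hmn
  rw [Fin.sum_univ_eq_sum_range (fun j => b ^ j * R ^ (n - 1 - j) / a ^ (n - 1)), ← Finset.sum_div,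
    ← hgeom, div_mul_eq_mul_div, div_le_iff₀ hn0,
    show a ^ n = a * a ^ (n - 1) by rw [← pow_succ']; congr 1; lia,
    mul_assoc a (a ^ (n - 1)), mul_div_cancel₀ _ (by positivity)]
  linarith [mul_le_mul_of_nonneg_left hpre ha.le]

/-- The arithmetic of the budget. -/
lemma budget_le {ε η κ q W D V₀ mm : ℝ} (hη1 : η ≤ 1) (hεpos : 0 < ε) (hW : 0 ≤ W)
    (h2 : 1 ≤ (1 + ε) * (1 - η) * (κ - η)) (hm : mm ≤ η * V₀) (hq : 1 - η ≤ q) (hD : 0 ≤ D)
    (hWD : (1 + ε) * W ≤ D) (hDV : q * D ≤ V₀) : W + mm ≤ κ * V₀ := by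
  have hpos : 0 ≤ κ - η := by
    by_contra hcon
    have : (1 + ε) * (1 - η) * (κ - η) ≤ 0 :=
      mul_nonpos_of_nonneg_of_nonpos (mul_nonneg (by linarith) (by linarith)) (le_of_not_ge hcon)
    linarith
  have h1 : (1 + ε) * (1 - η) * W ≤ V₀ := by
    nlinarith [mul_le_mul_of_nonneg_left hWD (sub_nonneg.2 hη1), mul_le_mul_of_nonneg_right hq hD]
  have h3 : W ≤ (κ - η) * V₀ := by
    calc W ≤ (1 + ε) * (1 - η) * (κ - η) * W := le_mul_of_one_le_left hW h2
      _ = (κ - η) * ((1 + ε) * (1 - η) * W) := by ring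
      _ ≤ _ := mul_le_mul_of_nonneg_left h1 hpos
  linarith

/-- Packing beside a ball `q`, the parameters given. -/
lemma packing_beside (hm : MergeStmt) (hp : PushStmt) (hpc : PieceStmt) (hpf : PieceFillStmt)
    {k : ℕ} {R a ε η E : ℝ} {r : Fin k → ℝ} (q : Fin k) (hr : ∀ i, 0 < r i) (ha0 : 0 < a)
    (h2a : 2 * a ≤ R) (hqa : r q + a < R) (hao : ∀ i, i ≠ q → r i < a) (hε : 0 < ε) (hε1 : ε ≤ 1)
    (hη : η = ε / 32) (hE1 : 1 ≤ E) (hE2 : E ^ 2 ≤ 1 + ε / 4) {h g : ℕ} (hh : 1 ≤ h) (hg2 : 2 ≤ g)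
    (hgn : (g : ℝ) + 2 ≤ η * n) (hpow : (1 + 1 / (h : ℝ)) ^ n ≤ E)
    (hν : 100 * (h : ℝ) ^ 4 + 16 * (h : ℝ) ^ 3 ≤ η * 2 ^ g) (hn2 : 2 ≤ n)
    (haT : (1 + ε) * ∑ i ∈ univ.erase q, r i ^ n < R ^ n - (R - a) ^ n) : HasPacking n R r := by
  classical
  set b := R - a with hb
  set S := univ.erase q
  set T := ∑ i ∈ S, r i ^ n
  have hR : 0 < R := by linarith
  have hab : a ≤ b := by linarith
  have hbR : b ≤ R := by linarith
  have hb0 : 0 < b := by linarith
  have hn1 : 1 ≤ n := by lia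
  have hn0 : (0 : ℝ) < n := Nat.cast_pos.2 (by lia)
  have hη0 : 0 < η := by rw [hη]; positivity
  have hE : E ≤ 2 := by nlinarith
  have hT0 : 0 ≤ T := Finset.sum_nonneg fun i _ => pow_nonneg (hr i).le n
  set G : ℝ := 2 ^ g
  have hG0 : 0 < G := by positivity
  have hgn' : g + 2 ≤ n := by
    have : η * n ≤ n := mul_le_of_le_one_left hn0.le (by linarith)
    have : ((g + 2 : ℕ) : ℝ) ≤ n := by push_cast; linarith
    exact_mod_cast this
  set m := n - 1 - g
  have hmn : m ≤ n := by lia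
  have hm0 : 0 < m := by lia
  -- the volumes of the pieces, in units of size `a`
  set V : ℕ → ℝ := fun j => b ^ j * R ^ (n - 1 - j) / a ^ (n - 1)
  have hV : ∀ j, j < m → 2 * G ≤ V j := by
    intro j hj
    have hsplit : a ^ (n - 1) = a ^ j * a ^ (n - 1 - j) := by rw [← pow_add]; congr 1; lia
    simp only [V]
    rw [le_div_iff₀ (by positivity), hsplit]
    calc 2 * G * (a ^ j * a ^ (n - 1 - j)) = 2 ^ (g + 1) * (a ^ j * a ^ (n - 1 - j)) := by
          simp only [G]; rw [pow_succ']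
      _ ≤ 2 ^ (n - 1 - j) * (b ^ j * a ^ (n - 1 - j)) := by
          gcongr
          · norm_num
          · lia
      _ = b ^ j * (2 * a) ^ (n - 1 - j) := by ring
      _ ≤ b ^ j * R ^ (n - 1 - j) := by gcongr
  set κ := (1 - η) / E ^ 2
  have hκ : 0 ≤ κ := div_nonneg (by linarith) (by positivity)
  have hVsum := pieces_volume (m := m) ha0 hb0.le hbR (by linarith : a + b = R) hn1 hmn
  have hbudget : ∑ i ∈ S, (r i / a) ^ n + m ≤ ∑ j : Fin m, κ * V j := by
    rw [← Finset.mul_sum]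
    have han : (0 : ℝ) < a ^ n := pow_pos ha0 n
    refine budget_le (D := (R ^ n - b ^ n) / a ^ n) (q := (m : ℝ) / n) (η := η) (by linarith) hε
      (Finset.sum_nonneg fun i _ => pow_nonneg (div_nonneg (hr i).le ha0.le) n) ?_ ?_ ?_ ?_ ?_ ?_
    · have hκ' : (1 - η) / (1 + ε / 4) ≤ κ :=
        div_le_div_of_nonneg_left (by linarith) (by positivity) hE2
      rw [div_le_iff₀ (by linarith)] at hκ'
      have h4 : 1 + ε / 4 ≤ (1 + ε) * (1 - η) * (1 - η - η * (1 + ε / 4)) := by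
        have h5 : 1 - 4 * η ≤ (1 - η) * (1 - η - η * (1 + ε / 4)) := by
          nlinarith [mul_nonneg hη0.le (show 0 ≤ 1 - ε by linarith), mul_nonneg hη0.le hη0.le,
            mul_nonneg (mul_nonneg hη0.le hη0.le) hε.le]
        refine le_trans ?_ (le_trans (mul_le_mul_of_nonneg_left h5 (show 0 ≤ 1 + ε by linarith))
          (le_of_eq (mul_assoc _ _ _).symm))
        rw [hη]
        nlinarith
      have h6 : (1 + ε) * (1 - η) * (1 - η - η * (1 + ε / 4))
          ≤ (1 + ε) * (1 - η) * ((κ - η) * (1 + ε / 4)) :=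
        mul_le_mul_of_nonneg_left (by linarith) (mul_nonneg (by linarith) (by linarith))
      nlinarith
    · rw [Finset.mul_sum]
      calc (m : ℝ) = ∑ _j : Fin m, (1 : ℝ) := by simp
        _ ≤ _ := Finset.sum_le_sum fun j _ => by
          have hh1 : (1 : ℝ) ≤ (h : ℝ) ^ 4 := one_le_pow₀ (by exact_mod_cast hh)
          have := mul_le_mul_of_nonneg_left (hV j j.2) hη0.le
          have : (0 : ℝ) ≤ (h : ℝ) ^ 3 := by positivity
          linarith
    · rw [le_div_iff₀ hn0]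
      have : (m : ℝ) + g + 1 = n := by exact_mod_cast (show m + g + 1 = n by lia)
      linarith
    · exact div_nonneg (le_trans (by positivity) haT.le) han.le
    · rw [le_div_iff₀ han, mul_assoc, Finset.sum_mul]
      refine le_trans (le_of_eq ?_) haT.le
      congr 1
      exact Finset.sum_congr rfl fun i _ => by rw [div_pow, div_mul_cancel₀ _ han.ne']
    · rw [← mul_div_assoc, div_le_iff₀ han, mul_comm _ (a ^ n)]
      exact hVsum
  have hV0 : ∀ j : ℕ, 0 ≤ V j := fun j => by positivity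
  obtain ⟨f, hf⟩ := exists_partition hm0 (fun i => (r i / a) ^ n) (fun j => κ * V j)
    (fun j => mul_nonneg hκ (hV0 j)) S (fun i hi => ⟨pow_nonneg (div_nonneg (hr i).le ha0.le) n,
      pow_le_one₀ (div_nonneg (hr i).le ha0.le) ((div_le_one ha0).2 (hao i (Finset.ne_of_mem_erase hi)).le)⟩) hbudget
  -- fill each piece
  obtain ⟨J, hJ⟩ : ∃ J : ℕ, ∀ i, a ≤ 2 ^ J * r i := by
    choose J hJ using fun i => (pow_unbounded_of_one_lt (a / r i) (by norm_num : (1 : ℝ) < 2))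
    refine ⟨∑ i, J i, fun i => ?_⟩
    rw [← div_le_iff₀ (hr i)]
    exact (hJ i).le.trans (pow_le_pow_right₀ (by norm_num)
      (Finset.single_le_sum (fun j _ => Nat.zero_le _) (Finset.mem_univ i)))
  let e : Fin n := ⟨n - 1, by lia⟩
  refine hpc n k R a b r q (fun i => Fin.castLE hmn (f i.1)) ha0 hb0 (by linarith) (hr q)
    (by linarith) fun j => ?_
  by_cases hj : (j : ℕ) < m
  swap
  · have : IsEmpty {i : {i // i ≠ q} // Fin.castLE hmn (f i.1) = j} :=
      ⟨fun i => hj (by rw [← i.2]; exact (f i.1.1).2)⟩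
    exact packsIn_of_isEmpty _ _
  set Sj := S.filter fun i => f i = ⟨j, hj⟩
  obtain ⟨U, hU, hUb⟩ := units_below hm hp hn1 e r hh J a ha0 Sj fun i hi =>
    ⟨hJ i, hao i (Finset.ne_of_mem_erase (Finset.mem_filter.1 hi).1)⟩
  have hfill : Fill (unitVec e a U) (pieceVec j a b R) := by
    refine hpf n j e a b R h g U ha0 h2a hab hbR hh hg2 (by lia) ?_ hU.1 ?_
    · rw [Fin.lt_def]; show (j : ℕ) < n - 1; lia
    rw [show b ^ (j : ℕ) * R ^ (n - 1 - (j : ℕ)) = V j * a ^ (n - 1) by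
      simp only [V]; rw [div_mul_cancel₀ _ (by positivity)],
      mul_div_mul_right _ _ (pow_pos ha0 (n - 1)).ne']
    have hVj : 0 < V j := lt_of_lt_of_le (by positivity) (hV j hj)
    have h1 : (1 + 1 / (h : ℝ)) ^ n * U ≤ E * (E * (κ * V j) + 50 * (h : ℝ) ^ 4) := by
      refine mul_le_mul hpow (hUb.trans ?_) (Nat.cast_nonneg U) (by positivity)
      exact add_le_add (mul_le_mul hpow (hf ⟨j, hj⟩)
        (Finset.sum_nonneg fun i _ => pow_nonneg (div_nonneg (hr i).le ha0.le) n) (by positivity)) le_rfl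
    have h2 : (1 + 1 / (h : ℝ)) ^ n * U / V j ≤ 1 - η + 100 * (h : ℝ) ^ 4 / (2 * G) := by
      refine (div_le_div_of_nonneg_right h1 hVj.le).trans ?_
      rw [show E * (E * (κ * V j) + 50 * (h : ℝ) ^ 4) / V j = (E ^ 2 * κ) + 50 * E * (h : ℝ) ^ 4 / V j by
        field_simp]
      refine add_le_add (le_of_eq ?_) ?_
      · simp only [κ]; field_simp
      · refine div_le_div₀ (by positivity) ?_ (by positivity) (hV j hj)
        have : (0 : ℝ) ≤ (h : ℝ) ^ 4 := by positivity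
        nlinarith
    have h3 : (100 * (h : ℝ) ^ 4 + 16 * (h : ℝ) ^ 3) / G ≤ η := (div_le_iff₀ hG0).2 hν
    have h4 : 100 * (h : ℝ) ^ 4 / (2 * G) ≤ 100 * (h : ℝ) ^ 4 / G :=
      div_le_div_of_nonneg_left (by positivity) hG0 (by linarith)
    rw [add_div] at h3
    linarith
  exact (hU.2.push hfill).reindex
    (ι := {i : {i // i ≠ q} // Fin.castLE hmn (f i.1) = j})
    ⟨fun i => (⟨i.1.1, Finset.mem_filter.2 ⟨Finset.mem_erase.2 ⟨i.1.2, Finset.mem_univ _⟩,
      Fin.ext (by simpa using congr_arg Fin.val i.2)⟩⟩ : Sj),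
      fun i i' hii => Subtype.ext (Subtype.ext (congr_arg (fun z : Sj => (z : Fin k)) hii))⟩


theorem volumeAsymptotic (hm : MergeStmt) (hmv : MoveGenStmt) (hpc : PieceStmt) (hpf : PieceFillStmt) :
    VolumeAsymptotic := by
  classical
  intro ε₀ hε₀
  set ε := min ε₀ 1
  have hε : 0 < ε := lt_min hε₀ one_pos
  have hε1 : ε ≤ 1 := min_le_right _ _
  have hεε : ε ≤ ε₀ := min_le_left _ _
  have hp : PushStmt := pushStmt_of_move hmv.move
  obtain ⟨N₂, hN₂⟩ := (highDimSufficiency hm hp).2 (ε / 2) (by linarith)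
  set η := ε / 2 / 32 with hη
  have hη0 : 0 < η := by positivity
  -- the fine parameter
  obtain ⟨c, hc⟩ := exists_nat_gt (2 / Real.log (1 + ε / 8))
  have hlog : 0 < Real.log (1 + ε / 8) := Real.log_pos (by linarith)
  have hc0 : (0 : ℝ) < c := lt_trans (by positivity) hc
  have hc1 : 1 ≤ c := by exact_mod_cast hc0
  set E := Real.exp (1 / (c : ℝ))
  have hE1 : 1 ≤ E := Real.one_le_exp (by positivity)
  have hE2 : E ^ 2 ≤ 1 + ε / 8 := by
    rw [← Real.exp_nat_mul, ← Real.le_log_iff_exp_le (by linarith)]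
    rw [div_lt_iff₀ hlog] at hc
    push_cast
    rw [mul_one_div, div_le_iff₀ hc0]
    linarith
  have hE : E ≤ 2 := by nlinarith
  -- large dimension
  obtain ⟨L₀, hL₀⟩ := eventually_atTop.1
    ((tendsto_pow_const_div_const_pow_of_one_lt 1 (by norm_num : (1 : ℝ) < 2)).eventually
      (eventually_le_nhds (show (0 : ℝ) < η / 8 by positivity)))
  obtain ⟨N₃, hN₃⟩ := eventually_atTop.1
    ((tendsto_pow_atTop_nhds_zero_of_lt_one (by norm_num : (0 : ℝ) ≤ 1 / 2) (by norm_num)).eventually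
      (eventually_le_nhds (show (0 : ℝ) < ε / 8 by positivity)))
  obtain ⟨N₄, hN₄⟩ := exists_nat_gt (64 * 116 * (c : ℝ) ^ 4 / η)
  refine ⟨max (max N₂ N₃) (max (max N₄ (2 ^ (L₀ + 1))) 2), fun n hn k R r hR hr hpair p hsum => ?_⟩
  simp only [max_le_iff] at hn
  obtain ⟨⟨hn₂, hn₃⟩, ⟨hn₄, hn₅⟩, hn₆⟩ := hn
  have hn1 : 1 ≤ n := by lia
  have hn0 : (0 : ℝ) < n := Nat.cast_pos.2 (by lia)
  have hr0 : ∀ i, 0 ≤ r i ^ n := fun i => pow_nonneg (hr i).1.le n
  have hsum' : r p ^ n + (1 + ε) * ∑ i ∈ univ.erase p, r i ^ n ≤ R ^ n := by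
    refine le_trans ?_ hsum
    gcongr
    exact Finset.sum_nonneg fun i _ => hr0 i
  clear hsum
  by_cases hall : ∀ i, 2 * r i < R
  · refine hN₂ n hn₂ k R r hR (fun i => ⟨(hr i).1, hall i⟩) ?_
    rw [← Finset.add_sum_erase _ _ (Finset.mem_univ p)]
    have h1 : r p ^ n ≤ (1 / 2) ^ n * R ^ n := by
      rw [← mul_pow]; exact pow_le_pow_left₀ (hr p).1.le (by linarith [hall p]) n
    have h2 := mul_le_mul_of_nonneg_right (hN₃ n hn₃) (pow_nonneg hR.le n)
    set T := ∑ i ∈ univ.erase p, r i ^ n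
    have hT : 0 ≤ T := Finset.sum_nonneg fun i _ => hr0 i
    have hp0 := hr0 p
    have h3 : (1 + ε / 2) * T ≤ (1 - ε / 4) * R ^ n := by
      have h4 := mul_le_mul_of_nonneg_left hsum' (show 0 ≤ 1 - ε / 4 by linarith)
      nlinarith [mul_nonneg hT (mul_nonneg hε.le (sub_nonneg.2 hε1)),
        mul_nonneg hp0 (show 0 ≤ 1 - ε / 4 by linarith)]
    have h5 : (1 + ε / 2) * r p ^ n ≤ 2 * (ε / 8 * R ^ n) := by
      refine mul_le_mul (by linarith) (h1.trans h2) hp0 (by linarith)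
    linarith
  -- the biggest ball
  push Not at hall
  obtain ⟨q, hq⟩ := hall
  have hsum : r q ^ n + (1 + ε) * ∑ i ∈ univ.erase q, r i ^ n ≤ R ^ n := by
    by_cases hpq : q = p
    · subst hpq; exact hsum'
    have hle : r p ^ n ≤ r q ^ n :=
      pow_le_pow_left₀ (hr p).1.le (by linarith [hpair p q (Ne.symm hpq)]) n
    have e1 := Finset.add_sum_erase univ (fun i => r i ^ n) (Finset.mem_univ p)
    have e2 := Finset.add_sum_erase univ (fun i => r i ^ n) (Finset.mem_univ q)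
    nlinarith
  clear hsum'
  set S := univ.erase q
  set T := ∑ i ∈ S, r i ^ n
  have hT0 : 0 ≤ T := Finset.sum_nonneg fun i _ => hr0 i
  have hstrict : (1 + ε / 2) * T < R ^ n - r q ^ n := by
    have hq' : r q ^ n < R ^ n := pow_lt_pow_left₀ (hr q).2 (hr q).1.le (by lia)
    rcases hT0.lt_or_eq with hT | hT
    · nlinarith
    · rw [← hT]; linarith
  obtain ⟨a, ⟨has, hao⟩, ha0, haT⟩ : ∃ a, (a < R - r q ∧ ∀ i ∈ S, r i < a) ∧ 0 < a ∧
      (1 + ε / 2) * T < R ^ n - (R - a) ^ n := by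
    have h1 : ∀ᶠ a in 𝓝[<] (R - r q), (1 + ε / 2) * T < R ^ n - (R - a) ^ n := by
      refine Tendsto.eventually_const_lt (v := R ^ n - r q ^ n) hstrict ?_
      have : Tendsto (fun a : ℝ => R ^ n - (R - a) ^ n) (𝓝 (R - r q))
          (𝓝 (R ^ n - (R - (R - r q)) ^ n)) := (by fun_prop : Continuous _).tendsto _
      rw [sub_sub_cancel] at this
      exact this.mono_left nhdsWithin_le_nhds
    have h2 : ∀ᶠ a in 𝓝[<] (R - r q), ∀ i ∈ S, r i < a :=
      (Finset.eventually_all S).2 fun i hi => (eventually_gt_nhds (by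
        linarith [hpair i q (Finset.ne_of_mem_erase hi)])).filter_mono nhdsWithin_le_nhds
    have h3 : ∀ᶠ a in 𝓝[<] (R - r q), 0 < a :=
      (eventually_gt_nhds (sub_pos.2 (hr q).2)).filter_mono nhdsWithin_le_nhds
    obtain ⟨a, ⟨⟨e1, e2⟩, e3⟩, e4⟩ :=
      (((h1.and h2).and h3).and (self_mem_nhdsWithin (s := Set.Iio (R - r q)))).exists
    exact ⟨a, ⟨e4, e2⟩, e3, e1⟩
  -- the parameters
  set h := c * n
  have hh : 1 ≤ h := Nat.one_le_iff_ne_zero.2 (by positivity)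
  have hh' : (h : ℝ) = c * n := by simp [h]
  have hpow : (1 + 1 / (h : ℝ)) ^ n ≤ E := by
    calc (1 + 1 / (h : ℝ)) ^ n ≤ Real.exp (1 / (h : ℝ)) ^ n := by
          gcongr; linarith [Real.add_one_le_exp (1 / (h : ℝ))]
      _ = E := by rw [← Real.exp_nat_mul]; congr 1; rw [hh']; field_simp
  set L := Nat.log 2 n
  set g := 6 * L
  have hLpow : 2 ^ L ≤ n := Nat.pow_log_le_self 2 (by lia)
  have hLlt : n < 2 ^ (L + 1) := Nat.lt_pow_succ_log_self one_lt_two n
  have hL : L₀ + 1 ≤ L := Nat.le_log_of_pow_le one_lt_two hn₅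
  have hg2 : 2 ≤ g := by lia
  have hgn : (g : ℝ) + 2 ≤ η * n := by
    have h1 := hL₀ L (by lia)
    rw [pow_one, div_le_iff₀ (by positivity)] at h1
    have h2 : ((2 : ℝ) ^ L) ≤ n := by exact_mod_cast hLpow
    have h3 : (1 : ℝ) ≤ L := by exact_mod_cast (show 1 ≤ L by lia)
    have h4 : η / 8 * 2 ^ L ≤ η / 8 * n := by gcongr
    simp only [g]
    push_cast
    linarith
  set G : ℝ := 2 ^ g
  have hG0 : 0 < G := by positivity
  have hν : 100 * (h : ℝ) ^ 4 + 16 * (h : ℝ) ^ 3 ≤ η * G := by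
    have h1 : ((n : ℝ)) ^ 6 ≤ 64 * G := by
      have : (n : ℝ) ≤ 2 * 2 ^ L := by
        rw [← pow_succ']; exact_mod_cast hLlt.le
      calc (n : ℝ) ^ 6 ≤ (2 * 2 ^ L) ^ 6 := by gcongr
        _ = 64 * G := by simp only [G, g]; rw [mul_pow, ← pow_mul, mul_comm L 6]; norm_num
    have h2 : 116 * (c : ℝ) ^ 4 * 64 ≤ η * n := by
      have : 64 * 116 * (c : ℝ) ^ 4 / η ≤ n := hN₄.le.trans (by exact_mod_cast hn₄)
      rw [div_le_iff₀ hη0] at this
      linarith
    have hh1 : (1 : ℝ) ≤ h := by exact_mod_cast hh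
    have h3 : (h : ℝ) ^ 3 ≤ (h : ℝ) ^ 4 := pow_le_pow_right₀ hh1 (by norm_num)
    have hn' : (1 : ℝ) ≤ n := by exact_mod_cast hn1
    have h4 : 116 * (h : ℝ) ^ 4 * 64 ≤ η * (n : ℝ) ^ 6 := by
      calc 116 * (h : ℝ) ^ 4 * 64 = (116 * (c : ℝ) ^ 4 * 64) * (n : ℝ) ^ 4 := by rw [hh']; ring
        _ ≤ η * n * (n : ℝ) ^ 4 := by gcongr
        _ = η * (n : ℝ) ^ 5 := by ring
        _ ≤ η * (n : ℝ) ^ 6 := mul_le_mul_of_nonneg_left (pow_le_pow_right₀ hn' (by norm_num)) hη0.le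
    nlinarith [mul_le_mul_of_nonneg_left h1 hη0.le, pow_nonneg (show (0 : ℝ) ≤ h by positivity) 3]
  exact packing_beside hm hp hpc hpf (η := η) (E := E) q (fun i => (hr i).1) ha0
    (by linarith) (by linarith) (fun i hi => hao i (Finset.mem_erase.2 ⟨hi, Finset.mem_univ _⟩))
    (by linarith) (by linarith) hη hE1 (by linarith) hh hg2 hgn hpow hν (by lia) haT

end Vale.Agent.P209.Asymp
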